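import Vale.Agent.P207.H992.MeasE
import Vale.Agent.P207.Kat.Q
import Vale.Agent.P207.H608.DirB1
import Vale.Agent.P207.H442.FrC2

/-!
# P207, block SUM: the integrals of the two stretch functions up to third order
-/

open scoped Manifold ContDiff ENNReal Topology
open Bundle MeasureTheory Set Filter

noncomputable section

set_option maxSynthPendingDepth 3
set_option linter.unusedSectionVars false

namespace Vale.Agent.P207.H992

open Vale.Agent.P207.Q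
open Vale.Agent.P207.Q.H892
open Vale.Agent.P207.H442 Vale.Agent.P207.H608 Vale.Agent.P207.Kat
open Vale.Agent.P255 (RMetric)

/-! ### the second order part of the two integrands -/

section Abs

variable {n : ℕ} [NeZero n] {A : Type*} [CommRing A] [Algebra ℝ A]

/-- the second order part of the stretch function in the direction `g₀ → g` -/
def LA (C : FrCalc n A) (k : Fin n → Fin n → A) (y : Fin n → A) : A :=
  (1 / 2 : ℝ) • ((∑ i, C.H 0 (y i) * C.H 0 (y i)) + (∑ i, ∑ j, Kf C i j * y i * y j) +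
    (∑ i, y i * C.H i (k 0 0)) + (2 : ℝ) • ∑ i, k 0 i * C.H 0 (y i))

/-- the second order part of the stretch function in the direction `g → g₀` -/
def LB (C : FrCalc n A) (k : Fin n → Fin n → A) (y : Fin n → A) : A :=
  (1 / 2 : ℝ) • ((∑ i, C.H 0 (y i) * C.H 0 (y i)) + (∑ i, ∑ j, Kf C i j * y i * y j)) -
    ∑ i, Zf C k i * y i

theorem LB_eq (C : FrCalc n A) (k : Fin n → Fin n → A) (y : Fin n → A) :
    LB C k y = -(1 / 2 : ℝ) • Qint C k y + (1 / 8 : ℝ) • (k 0 0 * k 0 0) := by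
  unfold LB Qint
  generalize (∑ i, C.H 0 (y i) * C.H 0 (y i)) = a
  generalize (∑ i, ∑ j, Kf C i j * y i * y j) = b
  generalize (∑ i, Zf C k i * y i) = c
  generalize k 0 0 * k 0 0 = d
  module

theorem I_LB {C : FrCalc n A} (I : A →ₗ[ℝ] ℝ) (k : Fin n → Fin n → A) (y : Fin n → A) :
    I (LB C k y) = -(1 / 2) * I (Qint C k y) + 1 / 8 * I (k 0 0 * k 0 0) := by
  rw [LB_eq, map_add, map_smul, map_smul, smul_eq_mul, smul_eq_mul]

/-- integration by parts -/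
theorem I_LA {C : FrCalc n A} {I : A →ₗ[ℝ] ℝ} (hI : C.IsInt I) (k : Fin n → Fin n → A)
    (y : Fin n → A) : I (LA C k y) = I (LB C k y) := by
  have h1 : I (∑ i, k 0 i * C.H 0 (y i)) = -I (∑ i, C.H 0 (k 0 i) * y i) := by
    rw [map_sum, map_sum, ← Finset.sum_neg_distrib]
    exact Finset.sum_congr rfl fun i _ => hI.mul_H 0 _ _
  have h2 : ∑ i, Zf C k i * y i = (∑ i, C.H 0 (k 0 i) * y i) -
      (1 / 2 : ℝ) • ∑ i, y i * C.H i (k 0 0) := by
    rw [Finset.smul_sum, ← Finset.sum_sub_distrib]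
    refine Finset.sum_congr rfl fun i _ => ?_
    rw [Zf, sub_mul, smul_mul_assoc, mul_comm (y i)]
  unfold LA LB
  rw [h2]
  simp only [map_smul, map_add, map_sub, smul_eq_mul, h1]
  ring

end Abs

/-! ### the two sums -/

variable {n : ℕ} {M : Type} [TopologicalSpace M] [ChartedSpace (EV n) M]
  [IsManifold 𝓘(ℝ, EV n) ∞ M] [CompactSpace M] [T2Space M] [NeZero n]

section KS

variable (g₀ g : RMetric (EV n) M)

/-- the components of `g - g₀` as smooth functions on the frame bundle -/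
def kS (i j : Fin n) : SmFr g₀ := ⟨⟨kf g₀ g i j, (smF_kf i j).continuous⟩, smF_kf i j⟩

end KS

variable {g₀ g : RMetric (EV n) M}

theorem kf_eq_KK (i j : Fin n) (f : Fr g₀) : kf g₀ g i j f = KK g f i j := by
  unfold kf KK GG
  rw [Matrix.sub_apply, Matrix.one_apply]
  rfl

variable [Nonempty (Fr g₀)]

theorem ev_kS (i j : Fin n) (f : Fr g₀) : ev f (kS g₀ g i j) = KK g f i j := kf_eq_KK i j f

theorem continuous_ev (L : SmFr g₀) : Continuous (fun f : Fr g₀ => ev f L) :=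
  (L : C(Fr g₀, ℝ)).continuous

variable [MeasurableSpace M] [BorelSpace M] {μ₀ μ : Measure M}
  {m₀ : Measure (UT g₀)} {m : Measure (UT g)} {mP : Measure (Fr g₀)}

theorem Setup.ofMP (hμ₀ : IsRiemVol g₀ μ₀) (hm₀ : IsLiouville g₀ μ₀ m₀) (hμ : IsRiemVol g μ)
    (hm : IsLiouville g μ m) (hP : IsMP m₀ mP) (hv : μ.real univ = μ₀.real univ) :
    Setup g₀ g μ₀ μ m₀ m mP :=
  ⟨hμ₀, hm₀, hμ, hm, hP.prob, hP.rot, hP.ut, hv⟩

theorem intF_trace_sq [IsFiniteMeasure mP] :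
    intF mP ((∑ i, kS g₀ g i i) * ∑ i, kS g₀ g i i) = ∫ f, (KK g f).trace ^ 2 ∂mP := by
  rw [intF_apply]
  refine integral_congr_ae (Eventually.of_forall fun f => ?_)
  change ev f ((∑ i, kS g₀ g i i) * ∑ i, kS g₀ g i i) = (KK g f).trace ^ 2
  rw [ev_mul, ev_sum, pow_two]
  simp only [ev_kS]
  rfl

theorem intF_nsq [IsFiniteMeasure mP] :
    intF mP (∑ i, ∑ j, kS g₀ g i j * kS g₀ g i j) = ∫ f, nsq (KK g f) ∂mP := by
  rw [intF_apply]
  refine integral_congr_ae (Eventually.of_forall fun f => ?_)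
  change ev f (∑ i, ∑ j, kS g₀ g i j * kS g₀ g i j) = nsq (KK g f)
  unfold nsq
  rw [ev_sum]
  refine Finset.sum_congr rfl fun i _ => ?_
  rw [ev_sum]
  refine Finset.sum_congr rfl fun j _ => ?_
  rw [ev_mul, ev_kS, pow_two]

theorem intF_k00_sq [IsFiniteMeasure mP] :
    intF mP (kS g₀ g 0 0 * kS g₀ g 0 0) = ∫ f : Fr g₀, KK g f 0 0 ^ 2 ∂mP := by
  rw [intF_apply]
  refine integral_congr_ae (Eventually.of_forall fun f => ?_)
  change ev f (kS g₀ g 0 0 * kS g₀ g 0 0) = KK g f 0 0 ^ 2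
  rw [ev_mul, ev_kS, pow_two]

theorem arithA {n a b S₂ S₃ S₄ q : ℝ} (hn : n ≠ 0)
    (h : |a - (1 + 1 / (4 * n) * S₃ - 1 / (8 * n) * S₂ - 1 / 8 * S₄)| ≤ b) :
    |a + (-(1 / 2) * q + 1 / 8 * S₄) - (1 - (n * q + 1 / 4 * S₂ - 1 / 2 * S₃) / (2 * n))| ≤ b := by
  refine le_of_eq_of_le ?_ h
  congr 1
  field_simp
  ring

theorem arithB {n a b S₂ S₃ S₄ q : ℝ} (hn : n ≠ 0)
    (h : |a - (1 + 1 / (4 * n) * S₃ - 1 / (8 * n) * S₂ - 1 / 8 * S₄ +
      (-(1 / 2) * q + 1 / 8 * S₄))| ≤ b) :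
    |a - (1 - (n * q + 1 / 4 * S₂ - 1 / 2 * S₃) / (2 * n))| ≤ b := by
  refine le_of_eq_of_le ?_ h
  congr 1
  field_simp
  ring

/-- **the mean stretch in the direction `g₀ → g`** -/
theorem sumA {C ε : ℝ} (hC : Consts n C ε) (S : Setup g₀ g μ₀ μ m₀ m mP) [IsFiniteMeasure mP]
    (hI : (frCalc g₀).IsInt (intF mP)) {κ : ℝ} (hκ0 : 0 ≤ κ) (hκ : κ ≤ ε)
    (hK : ∀ (f : Fr g₀) i j, |KK g f i j| ≤ κ) (y : Fin n → SmFr g₀) :
    |∫ f : Fr g₀, (1 + KK g f 0 0 / 2 - KK g f 0 0 ^ 2 / 8 +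
        ev f (LA (frCalc g₀) (kS g₀ g) y)) ∂mP -
      (1 - Qf (frCalc g₀) (intF mP) (kS g₀ g) y / (2 * n))| ≤ C * κ ^ 3 := by
  have := S.prob
  have hn : (1 : ℝ) ≤ n := by exact_mod_cast NeZero.one_le
  have h1 := stretch_A hC S hκ0 hκ hK
  have c0 := continuous_KK_apply (g₀ := g₀) g 0 0
  have c1 : Continuous (fun f : Fr g₀ => 1 + KK g f 0 0 / 2 - KK g f 0 0 ^ 2 / 8) :=
    (continuous_const.add (c0.div_const 2)).sub ((c0.pow 2).div_const 8)
  have c2 : Continuous (fun f : Fr g₀ => ev f (LA (frCalc g₀) (kS g₀ g) y)) := continuous_ev _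
  have h2 := integral_add (integrable_Fr (mP := mP) c1) (integrable_Fr (mP := mP) c2)
  have h3 : ∫ f : Fr g₀, ev f (LA (frCalc g₀) (kS g₀ g) y) ∂mP =
      intF mP (LA (frCalc g₀) (kS g₀ g) y) := rfl
  rw [h2, h3, I_LA hI, I_LB, intF_k00_sq]
  unfold Qf
  rw [intF_trace_sq, intF_nsq]
  exact arithA (by positivity) h1

/-- **the mean stretch in the direction `g → g₀`** -/
theorem sumB {C ε : ℝ} (hC : Consts n C ε) (S : Setup g₀ g μ₀ μ m₀ m mP) [IsFiniteMeasure mP]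
    {κ : ℝ} (hκ0 : 0 ≤ κ) (hκ : κ ≤ ε)
    (hK : ∀ (f : Fr g₀) i j, |KK g f i j| ≤ κ) (y : Fin n → SmFr g₀) {r : ℝ}
    (hr : ∀ f : Fr g₀, |ev f (LB (frCalc g₀) (kS g₀ g) y)| ≤ r) :
    |∫ f : Fr g₀, (1 - KK g f 0 0 / 2 + 3 / 8 * KK g f 0 0 ^ 2 +
        ev f (LB (frCalc g₀) (kS g₀ g) y)) * DD g f ∂mP -
      (1 - Qf (frCalc g₀) (intF mP) (kS g₀ g) y / (2 * n))| ≤ 2 * C * κ ^ 3 + C * κ * r := by
  have hn : (1 : ℝ) ≤ n := by exact_mod_cast NeZero.one_le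
  have c2 : Continuous (fun f : Fr g₀ => ev f (LB (frCalc g₀) (kS g₀ g) y)) := continuous_ev _
  have h1 := stretch_core hC S hκ0 hκ hK c2 hr
  have h3 : ∫ f : Fr g₀, ev f (LB (frCalc g₀) (kS g₀ g) y) ∂mP =
      intF mP (LB (frCalc g₀) (kS g₀ g) y) := rfl
  rw [h3, I_LB, intF_k00_sq] at h1
  unfold Qf
  rw [intF_trace_sq, intF_nsq]
  exact arithB (by positivity) h1

/-! ### one-sided versions -/

/-- a continuous function on the unit tangent bundle of `g`, as an integral over the frames of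
`g₀` -/
theorem integral_nz (S : Setup g₀ g μ₀ μ m₀ m mP) {a : UT g → ℝ} (hac : Continuous a) :
    ∫ p, a p ∂m = ∫ f : Fr g₀, a (nz g (f.ut 0)) * DD g f ∂mP := by
  have := S.prob
  have hpos := S.hm₀.vol_pos
  have h1 := integral_liou S.hμ₀ S.hm₀ S.hμ S.hm S.rot S.proj (F := fun q => a (nz g q))
    (hac.comp continuous_nz) hac (fun p => by
      rw [radial_ne g₀ _ p.pt (vec_ne_zero p)]
      change a p = a (nz g (nz g₀ p))
      rw [nz_nz])
  rw [S.vol, div_self hpos.ne', one_mul] at h1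
  exact h1

/-- integral of the density -/
theorem integral_DD (S : Setup g₀ g μ₀ μ m₀ m mP) : ∫ f : Fr g₀, DD g f ∂mP = 1 := by
  have h := integral_nz S (a := fun _ => 1) continuous_const
  have := S.hm.1
  simp only [one_mul, integral_const, probReal_univ, smul_eq_mul, mul_one] at h
  exact h.symm

/-- **the direction `g₀ → g`**: a pointwise bound of the speed gives the bound of its mean -/
theorem mean_le_A {C ε : ℝ} (hC : Consts n C ε) (S : Setup g₀ g μ₀ μ m₀ m mP) [IsFiniteMeasure mP]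
    (hI : (frCalc g₀).IsInt (intF mP)) {κ : ℝ} (hκ0 : 0 ≤ κ) (hκ : κ ≤ ε)
    (hK : ∀ (f : Fr g₀) i j, |KK g f i j| ≤ κ) (y : Fin n → SmFr g₀) {w : UT g₀ → ℝ}
    (hw : Continuous w) {e : ℝ}
    (hle : ∀ f : Fr g₀, w (f.ut 0) ≤ 1 + KK g f 0 0 / 2 - KK g f 0 0 ^ 2 / 8 +
        ev f (LA (frCalc g₀) (kS g₀ g) y) + e) :
    ∫ p, w p ∂m₀ ≤ 1 - Qf (frCalc g₀) (intF mP) (kS g₀ g) y / (2 * n) + C * κ ^ 3 + e := by
  have := S.prob
  have h1 := abs_le.1 (sumA hC S hI hκ0 hκ hK y)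
  have c0 := continuous_KK_apply (g₀ := g₀) g 0 0
  have c1 : Continuous (fun f : Fr g₀ => 1 + KK g f 0 0 / 2 - KK g f 0 0 ^ 2 / 8) :=
    (continuous_const.add (c0.div_const 2)).sub ((c0.pow 2).div_const 8)
  have c2 : Continuous (fun f : Fr g₀ => ev f (LA (frCalc g₀) (kS g₀ g) y)) := continuous_ev _
  have c3 : Continuous (fun f : Fr g₀ => 1 + KK g f 0 0 / 2 - KK g f 0 0 ^ 2 / 8 +
      ev f (LA (frCalc g₀) (kS g₀ g) y)) := c1.add c2
  have h5 : ∫ p, w p ∂m₀ = ∫ f : Fr g₀, w (f.ut 0) ∂mP := by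
    rw [← S.proj.map_eq, integral_map S.proj.measurable.aemeasurable hw.aestronglyMeasurable]
  have c5 : Continuous (fun f : Fr g₀ => w (f.ut 0)) := hw.comp (Fr.continuous_ut 0)
  have h6 : ∫ f : Fr g₀, w (f.ut 0) ∂mP ≤ ∫ f : Fr g₀, ((1 + KK g f 0 0 / 2 -
      KK g f 0 0 ^ 2 / 8 + ev f (LA (frCalc g₀) (kS g₀ g) y)) + e) ∂mP := by
    generalize LA (frCalc g₀) (kS g₀ g) y = L at *
    exact integral_mono (integrable_Fr c5) ((integrable_Fr c3).add (integrable_const e)) hle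
  rw [integral_add (integrable_Fr (mP := mP) c3) (integrable_const e)] at h6
  simp only [integral_const, probReal_univ, one_smul] at h6
  rw [h5]
  linarith [h1.2]

/-- **the direction `g → g₀`**: a pointwise bound of the speed gives the bound of its mean -/
theorem mean_le_B {C ε : ℝ} (hC : Consts n C ε) (S : Setup g₀ g μ₀ μ m₀ m mP) [IsFiniteMeasure mP]
    {κ : ℝ} (hκ0 : 0 ≤ κ) (hκ : κ ≤ ε)
    (hK : ∀ (f : Fr g₀) i j, |KK g f i j| ≤ κ) (y : Fin n → SmFr g₀) {r : ℝ}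
    (hr : ∀ f : Fr g₀, |ev f (LB (frCalc g₀) (kS g₀ g) y)| ≤ r) {w : UT g → ℝ}
    (hw : Continuous w) {e : ℝ}
    (hle : ∀ f : Fr g₀, w (nz g (f.ut 0)) ≤ 1 - KK g f 0 0 / 2 + 3 / 8 * KK g f 0 0 ^ 2 +
        ev f (LB (frCalc g₀) (kS g₀ g) y) + e) :
    ∫ p, w p ∂m ≤ 1 - Qf (frCalc g₀) (intF mP) (kS g₀ g) y / (2 * n) + 2 * C * κ ^ 3 +
      C * κ * r + e := by
  have := S.prob
  have h1 := abs_le.1 (sumB hC S hκ0 hκ hK y hr)
  have c0 := continuous_KK_apply (g₀ := g₀) g 0 0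
  have c1 : Continuous (fun f : Fr g₀ => 1 - KK g f 0 0 / 2 + 3 / 8 * KK g f 0 0 ^ 2) :=
    (continuous_const.sub (c0.div_const 2)).add (continuous_const.mul (c0.pow 2))
  have c2 : Continuous (fun f : Fr g₀ => ev f (LB (frCalc g₀) (kS g₀ g) y)) := continuous_ev _
  have cD := continuous_DD (g₀ := g₀) g
  have c3 : Continuous (fun f : Fr g₀ => (1 - KK g f 0 0 / 2 + 3 / 8 * KK g f 0 0 ^ 2 +
      ev f (LB (frCalc g₀) (kS g₀ g) y)) * DD g f) := (c1.add c2).mul cD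
  have c4 : Continuous (fun f : Fr g₀ => e * DD g f) := continuous_const.mul cD
  have c5 : Continuous (fun f : Fr g₀ => w (nz g (f.ut 0)) * DD g f) :=
    (hw.comp (continuous_nz.comp (Fr.continuous_ut 0))).mul cD
  have h6 : ∫ f : Fr g₀, w (nz g (f.ut 0)) * DD g f ∂mP ≤
      ∫ f : Fr g₀, ((1 - KK g f 0 0 / 2 + 3 / 8 * KK g f 0 0 ^ 2 +
      ev f (LB (frCalc g₀) (kS g₀ g) y)) * DD g f + e * DD g f) ∂mP := by
    generalize LB (frCalc g₀) (kS g₀ g) y = L at *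
    refine integral_mono (integrable_Fr c5) ((integrable_Fr c3).add (integrable_Fr c4)) fun f => ?_
    have h7 := mul_le_mul_of_nonneg_right (hle f) (DD_nonneg g f)
    rw [add_mul] at h7
    exact h7
  rw [integral_add (integrable_Fr (mP := mP) c3) (integrable_Fr c4), integral_const_mul,
    integral_DD S, mul_one] at h6
  rw [integral_nz S hw]
  linarith [h1.2]

end Vale.Agent.P207.H992
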