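import Vale.Agent.P207.H992.Vol
import Vale.Agent.P207.H608.Stretch

/-!
# P207, block B2: composition of the expansions of the speeds of the two test maps with the
integrals
-/

open scoped Manifold ContDiff ENNReal Topology
open Bundle MeasureTheory Set Filter

noncomputable section

set_option maxSynthPendingDepth 3
set_option linter.unusedSectionVars false

namespace Vale.Agent.P207.H992

open Vale.Agent.P207.Q
open Vale.Agent.P207.Q.H892
open Vale.Agent.P207.H442 Vale.Agent.P207.H608 Vale.Agent.P207.Kat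
open Vale.Agent.P255 (RMetric Npc)

variable {n : ℕ} {M : Type} [TopologicalSpace M] [ChartedSpace (EV n) M]
  [IsManifold 𝓘(ℝ, EV n) ∞ M] [CompactSpace M] [T2Space M] [NeZero n]
  [MeasurableSpace M] [BorelSpace M] {g g' : RMetric (EV n) M} [Nonempty (Fr g)]

/-! ### norms -/

theorem c_le_succ (D : Dat g) (s : ℕ) (u : SmFr g) : D.c s u ≤ D.c (s + 1) u :=
  le_add_of_nonneg_right (Finset.sum_nonneg fun _ _ => c_nonneg D s _)

theorem c_Hd_le (D : Dat g) (s : ℕ) (i : Fin n) (u : SmFr g) :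
    D.c s ((frCalc g).H i u) ≤ D.c (s + 1) u := by
  have h1 : D.c s ((frCalc g).H i u) ≤ ∑ a, H395.NSys.cN D.S s (D.S.X a u) :=
    Finset.single_le_sum (f := fun a => H395.NSys.cN D.S s (D.S.X a u))
      (fun a _ => c_nonneg D s _) (Finset.mem_univ (Sum.inl i : H955.Ix n))
  exact h1.trans (le_add_of_nonneg_left (c_nonneg D s u))

theorem c_le_cT (D : Dat g) (s : ℕ) (k : Fin n → Fin n → SmFr g) (i j : Fin n) :
    D.c s (k i j) ≤ D.cT s k := by
  have h1 : D.c s (k i j) ≤ ∑ j, D.c s (k i j) :=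
    Finset.single_le_sum (f := fun j => D.c s (k i j)) (fun j _ => c_nonneg D s _)
      (Finset.mem_univ j)
  have h2 : ∑ j, D.c s (k i j) ≤ D.cT s k :=
    Finset.single_le_sum (f := fun i => ∑ j, D.c s (k i j))
      (fun i _ => Finset.sum_nonneg fun j _ => c_nonneg D s _) (Finset.mem_univ i)
  exact h1.trans h2

theorem c_le_cV (D : Dat g) (s : ℕ) (y : Fin n → SmFr g) (i : Fin n) :
    D.c s (y i) ≤ D.cV s y :=
  Finset.single_le_sum (f := fun j => D.c s (y j)) (fun _ _ => c_nonneg D s _)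
      (Finset.mem_univ i)

theorem cT_le_succ (D : Dat g) (s : ℕ) (k : Fin n → Fin n → SmFr g) :
    D.cT s k ≤ D.cT (s + 1) k :=
  Finset.sum_le_sum fun _ _ => Finset.sum_le_sum fun _ _ => c_le_succ D s _

theorem abs_I_le (D : Dat g) {u : SmFr g} {r : ℝ} (h : ∀ f, |ev f u| ≤ r) : |D.I u| ≤ r := by
  have h4 := norm_integral_le_of_norm_le_const (μ := D.mP) (C := r)
    (f := fun f : Fr g => ev f u) (Eventually.of_forall fun f => h f)
  rw [probReal_univ, mul_one] at h4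
  exact h4

/-- the bound of the curvature -/
def rhoK (D : Dat g) : ℝ := ∑ i, ∑ j, D.c 0 (Kf (frCalc g) i j)

theorem rhoK_nonneg (D : Dat g) : 0 ≤ rhoK D :=
  Finset.sum_nonneg fun _ _ => Finset.sum_nonneg fun _ _ => c_nonneg D 0 _

/-- the second order part is quadratically small -/
theorem abs_LB_le (D : Dat g) (k : Fin n → Fin n → SmFr g) (y : Fin n → SmFr g) {e : ℝ}
    (hk : D.cT 1 k ≤ e) (hy : D.cV 1 y ≤ e) (f : Fr g) :
    |ev f (LB (frCalc g) k y)| ≤ (2 * n + rhoK D) * e ^ 2 := by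
  have he : 0 ≤ e := (cV_nonneg D 1 y).trans hy
  have a1 : ∀ i, |ev f (y i)| ≤ e := fun i =>
    (abs_ev_le D _ f).trans (((c_le_succ D 0 _).trans (c_le_cV D 1 y i)).trans hy)
  have a2 : ∀ i, |ev f ((frCalc g).H 0 (y i))| ≤ e := fun i =>
    (abs_ev_le D _ f).trans (((c_Hd_le D 0 0 _).trans (c_le_cV D 1 y i)).trans hy)
  have a3 : ∀ i, |ev f (Zf (frCalc g) k i)| ≤ 3 / 2 * e := by
    intro i
    have b1 : |ev f ((frCalc g).H 0 (k 0 i))| ≤ e :=
      (abs_ev_le D _ f).trans (((c_Hd_le D 0 0 _).trans (c_le_cT D 1 k 0 i)).trans hk)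
    have b2 : |ev f ((frCalc g).H i (k 0 0))| ≤ e :=
      (abs_ev_le D _ f).trans (((c_Hd_le D 0 i _).trans (c_le_cT D 1 k 0 0)).trans hk)
    have b3 : ev f (Zf (frCalc g) k i) = ev f ((frCalc g).H 0 (k 0 i)) -
        (1 / 2) * ev f ((frCalc g).H i (k 0 0)) := by
      rw [Zf, map_sub, map_smul, smul_eq_mul]
    rw [b3]
    refine (abs_sub _ _).trans ?_
    rw [abs_mul, abs_of_pos (by norm_num : (0 : ℝ) < 1 / 2)]
    linarith
  have s1 : |∑ i, ev f ((frCalc g).H 0 (y i)) * ev f ((frCalc g).H 0 (y i))| ≤ n * e ^ 2 := by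
    calc |∑ i, ev f ((frCalc g).H 0 (y i)) * ev f ((frCalc g).H 0 (y i))|
        ≤ ∑ i, |ev f ((frCalc g).H 0 (y i)) * ev f ((frCalc g).H 0 (y i))| :=
          Finset.abs_sum_le_sum_abs _ _
      _ ≤ ∑ _i : Fin n, e ^ 2 := Finset.sum_le_sum fun i _ => by
          rw [abs_mul, pow_two]
          exact mul_le_mul (a2 i) (a2 i) (abs_nonneg _) he
      _ = n * e ^ 2 := by simp
  have s2 : |∑ i, ∑ j, ev f (Kf (frCalc g) i j) * ev f (y i) * ev f (y j)| ≤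
      rhoK D * e ^ 2 := by
    unfold rhoK
    rw [Finset.sum_mul]
    refine (Finset.abs_sum_le_sum_abs _ _).trans (Finset.sum_le_sum fun i _ => ?_)
    rw [Finset.sum_mul]
    refine (Finset.abs_sum_le_sum_abs _ _).trans (Finset.sum_le_sum fun j _ => ?_)
    rw [abs_mul, abs_mul, pow_two, ← mul_assoc]
    have b1 := abs_ev_le D (Kf (frCalc g) i j) f
    have b2 := c_nonneg D 0 (Kf (frCalc g) i j)
    exact mul_le_mul (mul_le_mul b1 (a1 i) (abs_nonneg _) b2) (a1 j) (abs_nonneg _)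
      (mul_nonneg b2 he)
  have s3 : |∑ i, ev f (Zf (frCalc g) k i) * ev f (y i)| ≤ n * (3 / 2 * e ^ 2) := by
    calc |∑ i, ev f (Zf (frCalc g) k i) * ev f (y i)|
        ≤ ∑ i, |ev f (Zf (frCalc g) k i) * ev f (y i)| :=
          Finset.abs_sum_le_sum_abs _ _
      _ ≤ ∑ _i : Fin n, 3 / 2 * e ^ 2 := Finset.sum_le_sum fun i _ => by
          rw [abs_mul]
          have := mul_le_mul (a3 i) (a1 i) (abs_nonneg _) (by positivity)
          linarith
      _ = n * (3 / 2 * e ^ 2) := by simp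
  have e1 : ev f (LB (frCalc g) k y) = (1 / 2) *
      ((∑ i, ev f ((frCalc g).H 0 (y i)) * ev f ((frCalc g).H 0 (y i))) +
        ∑ i, ∑ j, ev f (Kf (frCalc g) i j) * ev f (y i) * ev f (y j)) -
      ∑ i, ev f (Zf (frCalc g) k i) * ev f (y i) := by
    unfold LB
    rw [map_sub, map_smul, map_add, smul_eq_mul]
    simp only [ev_sum, ev_mul]
  rw [e1]
  have hn : (0 : ℝ) ≤ n := Nat.cast_nonneg n
  have hr := rhoK_nonneg D
  have he2 : 0 ≤ e ^ 2 := sq_nonneg e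
  rw [abs_le] at s1 s2 s3 ⊢
  have p1 : 0 ≤ n * e ^ 2 := mul_nonneg hn he2
  have p2 : 0 ≤ rhoK D * e ^ 2 := mul_nonneg hr he2
  constructor <;> nlinarith [s1.1, s1.2, s2.1, s2.2, s3.1, s3.2]

/-- the form `Q` is quadratically small -/
theorem abs_Q_le (D : Dat g) (k : Fin n → Fin n → SmFr g) (y : Fin n → SmFr g) {e : ℝ}
    (hk : D.cT 1 k ≤ e) (hy : D.cV 1 y ≤ e) :
    |D.Q k y| / (2 * n) ≤ (2 * n + rhoK D + n) * e ^ 2 := by
  have he : 0 ≤ e := (cV_nonneg D 1 y).trans hy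
  have hn1 : (1 : ℝ) ≤ n := by exact_mod_cast NeZero.one_le
  have hn : (0 : ℝ) < n := by linarith
  have a1 : ∀ (f : Fr g) i j, |ev f (k i j)| ≤ e := fun f i j =>
    (abs_ev_le D _ f).trans (((c_le_succ D 0 _).trans (c_le_cT D 1 k i j)).trans hk)
  have b1 : |D.I (LB (frCalc g) k y)| ≤ (2 * n + rhoK D) * e ^ 2 :=
    abs_I_le D (abs_LB_le D k y hk hy)
  have b2 : |D.I (k 0 0 * k 0 0)| ≤ e ^ 2 := abs_I_le D fun f => by
    rw [ev_mul, abs_mul, pow_two]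
    exact mul_le_mul (a1 f 0 0) (a1 f 0 0) (abs_nonneg _) he
  have b3 : |D.I ((∑ i, k i i) * ∑ i, k i i)| ≤ n ^ 2 * e ^ 2 := abs_I_le D fun f => by
    have c1 : |ev f (∑ i, k i i)| ≤ n * e := by
      rw [ev_sum]
      calc |∑ i, ev f (k i i)| ≤ ∑ i, |ev f (k i i)| := Finset.abs_sum_le_sum_abs _ _
        _ ≤ ∑ _i : Fin n, e := Finset.sum_le_sum fun i _ => a1 f i i
        _ = n * e := by simp
    rw [ev_mul, abs_mul]
    have := mul_le_mul c1 c1 (abs_nonneg _) (by positivity)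
    nlinarith
  have b4 : |D.I (∑ i, ∑ j, k i j * k i j)| ≤ n ^ 2 * e ^ 2 := abs_I_le D fun f => by
    rw [ev_sum]
    simp only [ev_sum, ev_mul]
    calc |∑ i, ∑ j, ev f (k i j) * ev f (k i j)|
        ≤ ∑ i, |∑ j, ev f (k i j) * ev f (k i j)| := Finset.abs_sum_le_sum_abs _ _
      _ ≤ ∑ i, ∑ j, |ev f (k i j) * ev f (k i j)| :=
          Finset.sum_le_sum fun i _ => Finset.abs_sum_le_sum_abs _ _
      _ ≤ ∑ _i : Fin n, ∑ _j : Fin n, e ^ 2 :=
          Finset.sum_le_sum fun i _ => Finset.sum_le_sum fun j _ => by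
            rw [abs_mul, pow_two]
            exact mul_le_mul (a1 f i j) (a1 f i j) (abs_nonneg _) he
      _ = n ^ 2 * e ^ 2 := by simp; ring
  have e1 := I_LB (C := frCalc g) D.I k y
  have e2 : D.Q k y = n * D.I (Qint (frCalc g) k y) +
    (1 / 4) * D.I ((∑ i, k i i) * ∑ i, k i i) - (1 / 2) * D.I (∑ i, ∑ j, k i j * k i j) := rfl
  set r := (2 * n + rhoK D) * e ^ 2 with hr
  set q := D.I (Qint (frCalc g) k y)
  set l := D.I (LB (frCalc g) k y)
  set a := D.I (k 0 0 * k 0 0)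
  set b := D.I ((∑ i, k i i) * ∑ i, k i i)
  set c := D.I (∑ i, ∑ j, k i j * k i j)
  have e3 : q = -2 * l + 1 / 4 * a := by linarith
  have h5 : |q| ≤ 2 * r + 1 / 4 * e ^ 2 := by
    rw [e3]
    rw [abs_le] at b1 b2 ⊢
    constructor <;> linarith [b1.1, b1.2, b2.1, b2.2]
  have h6 : |D.Q k y| ≤ n * (2 * r + 1 / 4 * e ^ 2) + 3 / 4 * (n ^ 2 * e ^ 2) := by
    have h7 : |(n : ℝ) * q| ≤ n * (2 * r + 1 / 4 * e ^ 2) := by
      rw [abs_mul, abs_of_pos hn]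
      exact mul_le_mul_of_nonneg_left h5 hn.le
    rw [e2]
    rw [abs_le] at b3 b4 h7 ⊢
    constructor <;> linarith [b3.1, b3.2, b4.1, b4.2, h7.1, h7.2]
  rw [div_le_iff₀ (by positivity)]
  refine h6.trans ?_
  have h8 : (n : ℝ) * e ^ 2 ≤ n ^ 2 * e ^ 2 :=
    mul_le_mul_of_nonneg_right (by nlinarith) (sq_nonneg e)
  nlinarith

/-! ### the two expansions -/

/-- **(EXP-A)** the test map in the direction `g → g'` -/
def ExpA (D : Dat g) : Prop :=
  ∃ K : ℝ, 0 < K ∧ ∀ (g' : RMetric (EV n) M) (h' : Npc (mt g')) (k : Fin n → Fin n → SmFr g)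
    (y : Fin n → SmFr g), IsK g g' k → GAdm y → K * (D.cT 2 k + D.cV 1 y) ≤ 1 →
    ∃ Θ : H608.TestMap g g' h' D.φ, ∀ f : Fr g,
      Θ.w (f.ut 0) ≤ 1 + KK g' f 0 0 / 2 - KK g' f 0 0 ^ 2 / 8 +
        ev f (LA (frCalc g) k y) + K * (D.cT 2 k + D.cV 1 y) ^ 3

/-- **(EXP-B)** the test map in the direction `g' → g` -/
def ExpB (D : Dat g) : Prop :=
  ∃ K : ℝ, 0 < K ∧ ∀ (g' : RMetric (EV n) M) (D' : Dat g') (h : Npc (mt g))
    (k : Fin n → Fin n → SmFr g) (y : Fin n → SmFr g), IsK g g' k → GAdm y →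
    K * (D.cT 2 k + D.cV 1 y) ≤ 1 →
    ∃ Θ : H608.TestMap g' g h D'.φ, ∀ f : Fr g,
      Θ.w (nz g' (f.ut 0)) ≤ 1 - KK g' f 0 0 / 2 + 3 / 8 * KK g' f 0 0 ^ 2 +
        ev f (LB (frCalc g) k y) + K * (D.cT 2 k + D.cV 1 y) ^ 3

/-- **(B2)** -/
theorem b2Stmt [ConnectedSpace M] (hn : 2 ≤ n) (D : Dat g) (hN : NegCurvature g)
    (hA : ExpA D) (hB : ExpB D) : D.B2Stmt := by
  obtain ⟨C, ε, hC⟩ := exists_consts n
  obtain ⟨K₁, hK₁, hA⟩ := hA
  obtain ⟨K₂, hK₂, hB⟩ := hB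
  have hn0 : (0 : ℝ) < n := Nat.cast_pos.2 (NeZero.pos n)
  have hC0 := hC.nonneg
  have hεp := hC.pos
  have hr0 := rhoK_nonneg D
  set ρ := 2 * (n : ℝ) + rhoK D with hρ
  have hρ0 : 0 < ρ := by positivity
  set K := K₁ + K₂ + 1 / ε + 2 * C + C * ρ + 2 * (ρ + n) + 2 with hK
  have hKpos : 0 < K := by positivity
  refine ⟨K, hKpos, fun g' D' k y hN' hv hk hy hle => ?_⟩
  obtain rfl := isK_unique hk
  set e := D.cT 2 (kS g g') + D.cV 1 y with he
  have hk2 := cT_nonneg D 2 (kS g g')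
  have hy1 := cV_nonneg D 1 y
  have he0 : 0 ≤ e := add_nonneg hk2 hy1
  have hKe : ∀ {x : ℝ}, x ≤ K → x * e ≤ 1 := fun hx =>
    (mul_le_mul_of_nonneg_right hx he0).trans hle
  have hε1 : 0 ≤ 1 / ε := by positivity
  have hCρ : 0 ≤ C * ρ := by positivity
  have q1 : K₁ * e ≤ 1 := hKe (by rw [hK]; linarith)
  have q2 : K₂ * e ≤ 1 := hKe (by rw [hK]; linarith)
  have q3 : 1 / ε * e ≤ 1 := hKe (by rw [hK]; linarith)
  have q4 : 2 * (ρ + n) * e ≤ 1 := hKe (by rw [hK]; linarith)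
  have q5 : 1 * e ≤ 1 := hKe (by rw [hK]; linarith)
  rw [one_mul] at q5
  have heε : e ≤ ε := by
    rwa [one_div, inv_mul_le_iff₀ hεp, mul_one] at q3
  have hk1 : D.cT 1 (kS g g') ≤ e := (cT_le_succ D 1 _).trans (by linarith)
  have hk0 : D.cT 0 (kS g g') ≤ e := (cT_le_succ D 0 _).trans hk1
  have hyl : D.cV 1 y ≤ e := by linarith
  have hKK : ∀ (f : Fr g) i j, |KK g' f i j| ≤ e := fun f i j => (abs_KK_le D hk f i j).trans hk0
  have S := setup_dat D D' hv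
  have hI : (frCalc g).IsInt (intF D.mP) := isInt_intF D.hP D.hφ D.hmp
  -- the two test maps
  obtain ⟨Θ, hΘ⟩ := hA g' (npc_of_neg hN') _ y hk hy q1
  obtain ⟨Θ', hΘ'⟩ := hB g' D' (npc_of_neg hN) _ y hk hy q2
  have hLB : ∀ f : Fr g, |ev f (LB (frCalc g) (kS g g') y)| ≤ ρ * e ^ 2 :=
    abs_LB_le D _ y hk1 hyl
  have hQ := abs_Q_le D (kS g g') y hk1 hyl
  have e3 : 0 ≤ e ^ 3 := by positivity
  -- positivity
  have hQ2 : D.Q (kS g g') y / (2 * n) ≤ 1 / 2 := by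
    have h1 : D.Q (kS g g') y / (2 * n) ≤ |D.Q (kS g g') y| / (2 * n) :=
      div_le_div_of_nonneg_right (le_abs_self _) (by positivity)
    have h2 : (ρ + n) * e ^ 2 ≤ 1 / 2 := by
      have h3 : 2 * (ρ + n) * e * e ≤ 1 * e := mul_le_mul_of_nonneg_right q4 he0
      nlinarith
    linarith
  have hpos : 0 < 1 - D.Q (kS g g') y / (2 * n) + K * e ^ 3 := by
    have : 0 ≤ K * e ^ 3 := by positivity
    linarith
  have hm1 : ∫ p, Θ.w p ∂D.m ≤ 1 - D.Q (kS g g') y / (2 * n) + C * e ^ 3 + K₁ * e ^ 3 := by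
    exact mean_le_A hC S hI he0 heε hKK y Θ.cont_w hΘ
  have hm2 : ∫ p, Θ'.w p ∂D'.m ≤ 1 - D.Q (kS g g') y / (2 * n) + 2 * C * e ^ 3 +
      C * e * (ρ * e ^ 2) + K₂ * e ^ 3 := by
    exact mean_le_B hC S he0 heε hKK y hLB Θ'.cont_w hΘ'
  refine ⟨?_, ?_⟩
  · refine one_sided hn hN (npc_of_neg hN') D.hφ D'.hφ D.hμ D.hm Θ hpos (hm1.trans ?_)
    have : (C + K₁) * e ^ 3 ≤ K * e ^ 3 := mul_le_mul_of_nonneg_right (by rw [hK]; linarith) e3
    linarith
  · refine one_sided hn hN' (npc_of_neg hN) D'.hφ D.hφ D'.hμ D'.hm Θ' hpos (hm2.trans ?_)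
    have h7 : (2 * C + C * ρ + K₂) * e ^ 3 ≤ K * e ^ 3 :=
      mul_le_mul_of_nonneg_right (by rw [hK]; linarith) e3
    have h8 : C * e * (ρ * e ^ 2) = C * ρ * e ^ 3 := by ring
    rw [h8]
    linarith

end Vale.Agent.P207.H992
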