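import Vale.Agent.P207.H992.Sum
import Vale.Agent.P207.Kat.Spec

/-!
# P207, block VOL: equal volumes make the mean trace quadratically small
-/

open scoped Manifold ContDiff ENNReal Topology
open Bundle MeasureTheory Set Filter

noncomputable section

set_option maxSynthPendingDepth 3
set_option linter.unusedSectionVars false

namespace Vale.Agent.P207.H992

open Vale.Agent.P207.Q
open Vale.Agent.P207.Q.H892
open Vale.Agent.P207.H442 Vale.Agent.P207.H608 Vale.Agent.P207.Kat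
open Vale.Agent.P255 (RMetric)

variable {n : ℕ} {M : Type} [TopologicalSpace M] [ChartedSpace (EV n) M]
  [IsManifold 𝓘(ℝ, EV n) ∞ M] [CompactSpace M] [T2Space M] [NeZero n]
  [MeasurableSpace M] [BorelSpace M] {g g' : RMetric (EV n) M} [Nonempty (Fr g)]

/-- the data of two metrics of the same volume -/
theorem setup_dat (D : Dat g) (D' : Dat g') (hv : D'.μ univ = D.μ univ) :
    Setup g g' D.μ D'.μ D.m D'.m D.mP :=
  Setup.ofMP D.hμ D.hm D'.hμ D'.hm D.hP (by rw [Measure.real, Measure.real, hv])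

theorem isK_unique {k : Fin n → Fin n → SmFr g} (hk : IsK g g' k) : k = kS g g' := by
  funext i j
  refine ext_ev fun p => ?_
  rw [hk p i j]
  rfl

theorem ev_isK {k : Fin n → Fin n → SmFr g} (hk : IsK g g' k) (f : Fr g) (i j : Fin n) :
    ev f (k i j) = KK g' f i j := by
  rw [isK_unique hk, ev_kS]

theorem abs_ev_le (D : Dat g) (u : SmFr g) (f : Fr g) : |ev f u| ≤ D.c 0 u := by
  exact (u : C(Fr g, ℝ)).norm_coe_le_norm f

theorem c_nonneg (D : Dat g) (s : ℕ) (u : SmFr g) : 0 ≤ D.c s u := by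
  unfold Dat.c
  induction s generalizing u with
  | zero => exact norm_nonneg _
  | succ s ih => exact add_nonneg (ih u) (Finset.sum_nonneg fun a _ => ih _)

theorem abs_KK_le (D : Dat g) {k : Fin n → Fin n → SmFr g} (hk : IsK g g' k) (f : Fr g)
    (i j : Fin n) : |KK g' f i j| ≤ D.cT 0 k := by
  rw [← ev_isK hk]
  refine (abs_ev_le D _ f).trans ?_
  have h1 : D.c 0 (k i j) ≤ ∑ j, D.c 0 (k i j) :=
    Finset.single_le_sum (f := fun j => D.c 0 (k i j)) (fun j _ => c_nonneg D 0 _)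
      (Finset.mem_univ j)
  have h2 : ∑ j, D.c 0 (k i j) ≤ D.cT 0 k :=
    Finset.single_le_sum (f := fun i => ∑ j, D.c 0 (k i j))
      (fun i _ => Finset.sum_nonneg fun j _ => c_nonneg D 0 _) (Finset.mem_univ i)
  exact h1.trans h2

theorem cT_nonneg (D : Dat g) (s : ℕ) (k : Fin n → Fin n → SmFr g) : 0 ≤ D.cT s k :=
  Finset.sum_nonneg fun i _ => Finset.sum_nonneg fun j _ => c_nonneg D s _

theorem cV_nonneg (D : Dat g) (s : ℕ) (y : Fin n → SmFr g) : 0 ≤ D.cV s y :=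
  Finset.sum_nonneg fun i _ => c_nonneg D s _

/-- **(VOL)** -/
theorem volStmt (D : Dat g) : D.VOLStmt := by
  obtain ⟨C, ε, hC⟩ := exists_consts n
  have hn : (0 : ℝ) < n := Nat.cast_pos.2 (NeZero.pos n)
  refine ⟨2 * C + 2 * n ^ 2 + 1 / ε, by
    have := hC.nonneg
    have := hC.pos
    positivity, fun g' D' k hv hk hle => ?_⟩
  set κ := D.cT 0 k with hκdef
  have hκ0 : 0 ≤ κ := cT_nonneg D 0 k
  have hεp := hC.pos
  have hC0 := hC.nonneg
  have hκ : κ ≤ ε := by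
    have h1 : 1 / ε * κ ≤ 1 := by
      have h2 : 0 ≤ (2 * C + 2 * (n : ℝ) ^ 2) * κ := by positivity
      linarith [add_mul (2 * C + 2 * (n : ℝ) ^ 2) (1 / ε) κ]
    rw [one_div, inv_mul_le_iff₀ hεp, mul_one] at h1
    exact h1
  have hκ1 : κ ≤ 1 := hκ.trans hC.le_one
  have hK := fun f i j => abs_KK_le D hk f i j
  have S := setup_dat D D' hv
  have h1 := trace_bound hC S hκ0 hκ hK
  have e1 : D.I (∑ i, k i i) = ∫ f, (KK g' f).trace ∂D.mP := by
    change intF D.mP _ = _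
    rw [intF_apply]
    refine integral_congr_ae (Eventually.of_forall fun f => ?_)
    change ev f (∑ i, k i i) = (KK g' f).trace
    rw [ev_sum]
    simp only [ev_isK hk]
    rfl
  have htr : ∀ f : Fr g, |(KK g' f).trace ^ 2| ≤ (n * κ) ^ 2 := by
    intro f
    rw [abs_of_nonneg (sq_nonneg _), ← sq_abs]
    refine pow_le_pow_left₀ (abs_nonneg _) ?_ 2
    calc |(KK g' f).trace| ≤ ∑ i, |KK g' f i i| := Finset.abs_sum_le_sum_abs _ _
      _ ≤ ∑ _i : Fin n, κ := Finset.sum_le_sum fun i _ => hK f i i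
      _ = n * κ := by simp
  have hns : ∀ f : Fr g, |nsq (KK g' f)| ≤ (n * κ) ^ 2 := by
    intro f
    rw [abs_of_nonneg (Finset.sum_nonneg fun i _ => Finset.sum_nonneg fun j _ => sq_nonneg _)]
    exact nsq_le (hK f)
  have h2 : |∫ f, (KK g' f).trace ^ 2 ∂D.mP| ≤ (n * κ) ^ 2 := by
    have h4 := norm_integral_le_of_norm_le_const (μ := D.mP) (C := (n * κ) ^ 2)
      (f := fun f : Fr g => (KK g' f).trace ^ 2) (Eventually.of_forall fun f => htr f)
    simpa using h4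
  have h3 : |∫ f, nsq (KK g' f) ∂D.mP| ≤ (n * κ) ^ 2 := by
    have h4 := norm_integral_le_of_norm_le_const (μ := D.mP) (C := (n * κ) ^ 2)
      (f := fun f : Fr g => nsq (KK g' f)) (Eventually.of_forall fun f => hns f)
    simpa using h4
  rw [e1]
  have hκ3 : κ ^ 3 ≤ κ ^ 2 := pow_le_pow_of_le_one hκ0 hκ1 (by norm_num)
  have h5 : 2 * C * κ ^ 3 ≤ 2 * C * κ ^ 2 := mul_le_mul_of_nonneg_left hκ3 (by positivity)
  have h6 : (0 : ℝ) ≤ 1 / ε * κ ^ 2 := by positivity
  have e2 : ((n : ℝ) * κ) ^ 2 = n ^ 2 * κ ^ 2 := by ring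
  rw [e2] at h2 h3
  rw [abs_le] at h1 h2 h3 ⊢
  have h7 : (0 : ℝ) ≤ n ^ 2 * κ ^ 2 := by positivity
  have e3 : (2 * C + 2 * (n : ℝ) ^ 2 + 1 / ε) * κ ^ 2 =
      2 * C * κ ^ 2 + 2 * (n ^ 2 * κ ^ 2) + 1 / ε * κ ^ 2 := by ring
  rw [e3]
  constructor <;> linarith [h1.1, h1.2, h2.1, h2.2, h3.1, h3.2]

end Vale.Agent.P207.H992
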