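import Vale.Agent.P207.H992.MeasC
import Vale.Agent.P207.Q.H892.Meas
import Vale.Agent.P207.BlkL4

/-!
# P207, block MEAS, part D: the volume and the Liouville measure of a second metric on the bundle
of orthonormal frames of the first
-/

open scoped Manifold ContDiff ENNReal Topology
open Bundle MeasureTheory Set Filter

noncomputable section

set_option linter.unusedSectionVars false

namespace Vale.Agent.P207.H992

open Vale.Agent.P255 (RMetric coefIn Gam Riem IsGeo Metric trans coefL)
open Vale.Agent.P207.Q (Fr)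
open Vale.Agent.P207.Q.H892

variable {n : ℕ} {M : Type} [TopologicalSpace M] [ChartedSpace (EV n) M]
  [IsManifold 𝓘(ℝ, EV n) ∞ M] {g₀ : RMetric (EV n) M}

/-! ### the matrix of `g` in a `g₀`-orthonormal frame -/

/-- the matrix of `g` in the frame `f` -/
def GG (g : RMetric (EV n) M) (f : Fr g₀) : Matrix (Fin n) (Fin n) ℝ :=
  Matrix.of fun i j => (g.inner f.pt (f.e i) (f.e j) : ℝ)

/-- the matrix of `g - g₀` in the frame `f` -/
def KK (g : RMetric (EV n) M) (f : Fr g₀) : Matrix (Fin n) (Fin n) ℝ := GG g f - 1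

theorem one_add_KK (g : RMetric (EV n) M) (f : Fr g₀) : 1 + KK g f = GG g f := by
  unfold KK
  rw [add_sub_cancel]

theorem Lf_single (f : Fr g₀) (i : Fin n) : Lf f (EuclideanSpace.single i 1) = f.e i := by
  rw [Lf_apply]
  simp

theorem GG_eq_gramE (g : RMetric (EV n) M) (f : Fr g₀) :
    GG g f = gramE ((innerB g f.pt).bilinearComp (Lf f) (Lf f)) := by
  ext i j
  change (g.inner f.pt (f.e i) (f.e j) : ℝ) =
    innerB g f.pt (Lf f (EuclideanSpace.single i 1)) (Lf f (EuclideanSpace.single j 1))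
  rw [Lf_single, Lf_single]
  rfl

theorem GG_isSymm (g : RMetric (EV n) M) (f : Fr g₀) : (GG g f).IsSymm := by
  ext i j
  exact g.symm f.pt (f.e j) (f.e i)

theorem KK_isSymm (g : RMetric (EV n) M) (f : Fr g₀) : (KK g f).IsSymm := by
  unfold Matrix.IsSymm KK
  rw [Matrix.transpose_sub, GG_isSymm, Matrix.transpose_one]

theorem GG_self (f : Fr g₀) : GG g₀ f = 1 := by
  ext i j
  rw [Matrix.one_apply]
  exact f.2 i j

theorem Lf_injective (f : Fr g₀) : Function.Injective (Lf f) := by
  rw [injective_iff_map_eq_zero]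
  intro v hv
  have h1 := inner_Lf f v v
  rw [hv, map_zero] at h1
  exact (inner_self_eq_zero (𝕜 := ℝ)).1 h1.symm

theorem form_pos (g : RMetric (EV n) M) (f : Fr g₀) (v : EV n) (hv : v ≠ 0) :
    0 < (innerB g f.pt).bilinearComp (Lf f) (Lf f) v v := by
  change 0 < innerB g f.pt (Lf f v) (Lf f v)
  refine g.pos f.pt _ fun h => hv ?_
  exact Lf_injective f (h.trans (map_zero _).symm)

theorem form_symm (g : RMetric (EV n) M) (f : Fr g₀) (v w : EV n) :
    (innerB g f.pt).bilinearComp (Lf f) (Lf f) v w =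
      (innerB g f.pt).bilinearComp (Lf f) (Lf f) w v := g.symm f.pt _ _

theorem GG_det_pos (g : RMetric (EV n) M) (f : Fr g₀) : 0 < (GG g f).det := by
  rw [GG_eq_gramE]
  exact gramE_det_pos (form_symm g f) (form_pos g f)

theorem GG_rot (g : RMetric (EV n) M) (A : OG n) (f : Fr g₀) :
    GG g (Fr.rot A f) = A.1.transpose * GG g f * A.1 := by
  ext j k
  have h := Q.inner_mulR g f.1 A.1 j k
  refine Eq.trans h ?_
  simp only [Matrix.mul_apply, Matrix.transpose_apply, Finset.sum_mul]
  rw [Finset.sum_comm]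
  refine Finset.sum_congr rfl fun l _ => Finset.sum_congr rfl fun i _ => ?_
  change _ * _ * GG g f i l = _
  ring

theorem KK_rot (g : RMetric (EV n) M) (A : OG n) (f : Fr g₀) :
    KK g (Fr.rot A f) = A.1.transpose * KK g f * A.1 := by
  have hA : A.1.transpose * A.1 = 1 := (Matrix.mem_orthogonalGroup_iff' (Fin n) ℝ).1 A.2
  unfold KK
  rw [GG_rot, Matrix.mul_sub, Matrix.sub_mul, Matrix.mul_one, hA]

theorem det_conj (A : OG n) (K : Matrix (Fin n) (Fin n) ℝ) :
    (A.1.transpose * K * A.1).det = K.det := by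
  have hA : A.1.transpose * A.1 = 1 := (Matrix.mem_orthogonalGroup_iff' (Fin n) ℝ).1 A.2
  have h3 : A.1.transpose.det * A.1.det = 1 := by rw [← Matrix.det_mul, hA, Matrix.det_one]
  rw [Matrix.det_mul, Matrix.det_mul]
  calc A.1.transpose.det * K.det * A.1.det = (A.1.transpose.det * A.1.det) * K.det := by ring
    _ = _ := by rw [h3, one_mul]

theorem trace_conj (A : OG n) (K : Matrix (Fin n) (Fin n) ℝ) :
    (A.1.transpose * K * A.1).trace = K.trace := by
  have hA : A.1 * A.1.transpose = 1 := (Matrix.mem_orthogonalGroup_iff (Fin n) ℝ).1 A.2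
  rw [Matrix.trace_mul_comm, ← Matrix.mul_assoc, hA, Matrix.one_mul]

theorem nsq_conj [NeZero n] (A : OG n) {K : Matrix (Fin n) (Fin n) ℝ} (hK : K.IsSymm) :
    nsq (A.1.transpose * K * A.1) = nsq K := by
  have hA : A.1 * A.1.transpose = 1 := (Matrix.mem_orthogonalGroup_iff (Fin n) ℝ).1 A.2
  have hs : (A.1.transpose * K * A.1).IsSymm := by
    unfold Matrix.IsSymm
    rw [Matrix.transpose_mul, Matrix.transpose_mul, Matrix.transpose_transpose, hK,
      Matrix.mul_assoc]
  rw [nsq_eq hs, nsq_eq hK]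
  have e : A.1.transpose * K * A.1 * (A.1.transpose * K * A.1) =
      A.1.transpose * (K * K) * A.1 := by
    calc A.1.transpose * K * A.1 * (A.1.transpose * K * A.1)
        = A.1.transpose * K * (A.1 * A.1.transpose) * K * A.1 := by
          simp only [Matrix.mul_assoc]
      _ = _ := by rw [hA, Matrix.mul_one]; simp only [Matrix.mul_assoc]
  rw [e, trace_conj]

theorem qf_conj [NeZero n] (A : OG n) (K : Matrix (Fin n) (Fin n) ℝ) :
    (A.1.transpose * K * A.1) 0 0 = qf K (act A (e0 n)) := by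
  have h : ∀ i, (act A (e0 n)) i = A.1 i 0 := by
    intro i
    rw [act_apply]
    simp
  unfold qf
  simp only [h, Matrix.mul_apply, Matrix.transpose_apply, Finset.sum_mul]
  rw [Finset.sum_comm]
  refine Finset.sum_congr rfl fun i _ => Finset.sum_congr rfl fun j _ => ?_
  ring

theorem KK_rot_zero [NeZero n] (g : RMetric (EV n) M) (A : OG n) (f : Fr g₀) :
    KK g (Fr.rot A f) 0 0 = qf (KK g f) (act A (e0 n)) := by
  rw [KK_rot, qf_conj]

theorem continuous_GG_apply [NeZero n] (g : RMetric (EV n) M) (i j : Fin n) :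
    Continuous (fun f : Fr g₀ => GG g f i j) :=
  (Q.continuous_inner g i j).comp continuous_subtype_val

theorem continuous_GG [NeZero n] (g : RMetric (EV n) M) :
    Continuous (fun f : Fr g₀ => GG g f) :=
  continuous_matrix fun i j => continuous_GG_apply g i j

theorem continuous_KK [NeZero n] (g : RMetric (EV n) M) :
    Continuous (fun f : Fr g₀ => KK g f) := (continuous_GG g).sub continuous_const

theorem continuous_KK_apply [NeZero n] (g : RMetric (EV n) M) (i j : Fin n) :
    Continuous (fun f : Fr g₀ => KK g f i j) :=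
  (continuous_apply j).comp ((continuous_apply i).comp (continuous_KK g))

theorem continuous_trace_KK [NeZero n] (g : RMetric (EV n) M) :
    Continuous (fun f : Fr g₀ => (KK g f).trace) := (continuous_KK g).matrix_trace

theorem continuous_nsq_KK [NeZero n] (g : RMetric (EV n) M) :
    Continuous (fun f : Fr g₀ => nsq (KK g f)) :=
  continuous_finsetSum _ fun i _ => continuous_finsetSum _ fun j _ =>
    (continuous_KK_apply g i j).pow 2

/-! ### the density of the volume -/

/-- the density of the volume of `g` with respect to the volume of `g₀` -/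
def rho (g₀ g : RMetric (EV n) M) (x : M) : ℝ :=
  Real.sqrt (gramE (innerB g x)).det / Real.sqrt (gramE (innerB g₀ x)).det

theorem innerB_det_pos (g : RMetric (EV n) M) (x : M) : 0 < (gramE (innerB g x)).det :=
  gramE_det_pos (fun v w => g.symm x v w) (fun v hv => g.pos x v hv)

theorem rho_pt (g : RMetric (EV n) M) (f : Fr g₀) :
    rho g₀ g f.pt = Real.sqrt (GG g f).det := by
  have h1 : (GG g f).det = (Lf f).det ^ 2 * (gramE (innerB g f.pt)).det := by
    rw [GG_eq_gramE, gramE_comp_det]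
  have h2 : (1 : ℝ) = (Lf f).det ^ 2 * (gramE (innerB g₀ f.pt)).det := by
    rw [← gramE_comp_det, ← GG_eq_gramE, GG_self, Matrix.det_one]
  have h3 := innerB_det_pos g₀ f.pt
  have h4 : (Lf f).det ^ 2 = 1 / (gramE (innerB g₀ f.pt)).det := by
    field_simp
    linarith
  unfold rho
  rw [h1, h4, Real.sqrt_mul (by positivity), Real.sqrt_div zero_le_one, Real.sqrt_one]
  ring

theorem rho_nonneg (g₀ g : RMetric (EV n) M) (x : M) : 0 ≤ rho g₀ g x := by
  unfold rho
  positivity

theorem dens_eq (g₀ g : RMetric (EV n) M) (b : M) {x : M}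
    (hx : x ∈ (chartAt (EV n) b).source) :
    dens g b (chartAt (EV n) b x) = rho g₀ g x * dens g₀ b (chartAt (EV n) b x) := by
  unfold dens rho
  rw [coefL_eq_comp g b hx, coefL_eq_comp g₀ b hx, gramE_comp_det, gramE_comp_det,
    Real.sqrt_mul (sq_nonneg _), Real.sqrt_mul (sq_nonneg _)]
  have h3 := Real.sqrt_pos.2 (innerB_det_pos g₀ x)
  field_simp

variable [CompactSpace M] [T2Space M] [NeZero n]

theorem isQuotientMap_pt (g : RMetric (EV n) M) :
    Topology.IsQuotientMap (fun f : Fr g => f.pt) := by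
  have h := isBdl_pt g
  exact h.cont.isClosedMap.isQuotientMap h.cont h.surj

theorem continuous_rho (g₀ g : RMetric (EV n) M) : Continuous (rho g₀ g) := by
  rw [(isQuotientMap_pt g₀).continuous_iff]
  have e : (rho g₀ g) ∘ (fun f : Fr g₀ => f.pt) = fun f => Real.sqrt (GG g f).det :=
    funext fun f => rho_pt g f
  rw [e]
  exact Real.continuous_sqrt.comp (continuous_GG g).matrix_det

variable [MeasurableSpace M] [BorelSpace M] {μ₀ μ : Measure M} {g : RMetric (EV n) M}

theorem vol_eq (hμ₀ : IsRiemVol g₀ μ₀) (hμ : IsRiemVol g μ) :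
    μ = μ₀.withDensity fun x => ENNReal.ofReal (rho g₀ g x) := by
  have hm : Measurable fun x => ENNReal.ofReal (rho g₀ g x) :=
    (continuous_rho g₀ g).measurable.ennreal_ofReal
  refine hμ.unique ?_
  intro a s hs ha
  change _ = ∫⁻ u in chartAt (EV n) a '' s, ENNReal.ofReal (dens g a u)
  rw [withDensity_apply _ hs]
  have h1 : ∫⁻ x in s, ENNReal.ofReal (rho g₀ g x) ∂μ₀ =
      ∫⁻ x in (chartAt (EV n) a).source, s.indicator (fun x => ENNReal.ofReal (rho g₀ g x)) x
        ∂μ₀ := by
    rw [lintegral_indicator hs, Measure.restrict_restrict hs, inter_eq_self_of_subset_left ha]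
  have hT : MeasurableSet (chartAt (EV n) a).target := (chartAt (EV n) a).open_target.measurableSet
  have hsub : chartAt (EV n) a '' s ⊆ (chartAt (EV n) a).target := by
    rintro _ ⟨x, hx, rfl⟩
    exact (chartAt (EV n) a).map_source (ha hx)
  have him := measurableSet_chart_image (n := n) a hs ha
  have h2 : ∫⁻ u in chartAt (EV n) a '' s, ENNReal.ofReal (dens g a u) =
      ∫⁻ u in (chartAt (EV n) a).target, (chartAt (EV n) a '' s).indicator
        (fun u => ENNReal.ofReal (dens g a u)) u := by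
    rw [lintegral_indicator him, Measure.restrict_restrict him, inter_eq_self_of_subset_left hsub]
  rw [h1, hμ₀.lintegral_source a (hm.indicator hs), h2]
  refine setLIntegral_congr_fun hT fun u hu => ?_
  set x := (chartAt (EV n) a).symm u with hx
  have hxs : x ∈ (chartAt (EV n) a).source := (chartAt (EV n) a).map_target hu
  have hux : chartAt (EV n) a x = u := (chartAt (EV n) a).right_inv hu
  by_cases hxS : x ∈ s
  · have h3 : u ∈ chartAt (EV n) a '' s := ⟨x, hxS, hux⟩
    rw [indicator_of_mem hxS, indicator_of_mem h3, ← ENNReal.ofReal_mul (rho_nonneg _ _ _)]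
    congr 1
    rw [← hux, dens_eq g₀ g a hxs]
  · have h3 : u ∉ chartAt (EV n) a '' s := by
      rintro ⟨y, hy, hyu⟩
      apply hxS
      rw [hx, ← hyu, (chartAt (EV n) a).left_inv (ha hy)]
      exact hy
    rw [indicator_of_notMem hxS, indicator_of_notMem h3, zero_mul]

theorem integral_vol (hμ₀ : IsRiemVol g₀ μ₀) (hμ : IsRiemVol g μ) (φ : M → ℝ) :
    ∫ x, φ x ∂μ = ∫ x, φ x * rho g₀ g x ∂μ₀ := by
  have hm : Measurable fun x => (rho g₀ g x).toNNReal :=
    (continuous_rho g₀ g).measurable.real_toNNReal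
  have h := integral_withDensity_eq_integral_smul (μ := μ₀) hm φ
  rw [vol_eq hμ₀ hμ]
  refine h.trans ?_
  refine integral_congr_ae (Eventually.of_forall fun x => ?_)
  simp only []
  rw [NNReal.smul_def, Real.coe_toNNReal _ (rho_nonneg g₀ g x), smul_eq_mul, mul_comm]

/-! ### integrals over the frame bundle -/

variable {m₀ : Measure (UT g₀)} {m : Measure (UT g)} {mP : Measure (Fr g₀)}

/-- the average over the fibre -/
def fAvg (h : Fr g₀ → ℝ) (f : Fr g₀) : ℝ := ∫ A, h (Fr.rot A f) ∂haarP (OG n)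

theorem integral_fAvg [IsProbabilityMeasure mP]
    (hrot : ∀ A : OG n, MeasurePreserving (Fr.rot A : Fr g₀ → Fr g₀) mP mP) {h : Fr g₀ → ℝ}
    (hh : Continuous h) : ∫ f, fAvg h f ∂mP = ∫ f, h f ∂mP := by
  have h1 : ∀ A : OG n, ∫ f, h (Fr.rot A f) ∂mP = ∫ f, h f ∂mP := by
    intro A
    have h2 := (hrot A).map_eq
    conv_rhs => rw [← h2]
    rw [integral_map (hrot A).measurable.aemeasurable hh.aestronglyMeasurable]
  have hc : Continuous (fun q : OG n × Fr g₀ => h (Fr.rot q.1 q.2)) :=
    hh.comp Fr.continuous_rot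
  have hint : Integrable (fun q : OG n × Fr g₀ => h (Fr.rot q.1 q.2)) ((haarP (OG n)).prod mP) :=
    hc.integrable_of_hasCompactSupport (HasCompactSupport.of_compactSpace _)
  have h3 := integral_integral_swap (f := fun A f => h (Fr.rot A f)) hint
  simp only [h1, integral_const, probReal_univ, one_smul] at h3
  exact h3.symm

theorem radial_zero' (g : RMetric (EV n) M) (a : UT g → ℝ) (x : M) :
    radial g a x (0 : EV n) = 0 := by
  unfold radial
  exact dif_pos rfl

theorem radial_ne (g : RMetric (EV n) M) (a : UT g → ℝ) (x : M) {v : TangentSpace 𝓘(ℝ, EV n) x}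
    (hv : v ≠ 0) : radial g a x v = a (unitDir g x v hv) := by
  unfold radial
  exact dif_neg hv

/-- the average over the sphere in terms of frames -/
theorem sphAvg_frame {F : UT g₀ → ℝ} (hF : Continuous F) {a : UT g → ℝ}
    (ha : ∀ p, a p = radial g₀ F p.pt p.vec) (f : Fr g₀) :
    sphAvg g a f.pt = Real.sqrt (GG g f).det *
      ∫ A, F ((Fr.rot A f).ut 0) * (Real.sqrt (GG g (Fr.rot A f) 0 0))⁻¹ ^ n ∂haarP (OG n) := by
  have := compactSpace_UT g₀
  obtain ⟨C, hC0, hC⟩ := exists_abs_le hF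
  set x := f.pt with hx
  set B := (innerB g x).bilinearComp (Lf f) (Lf f) with hB
  set b : EV n → ℝ := fun v => radial g₀ F x (Lf f v) with hb
  have hbm : Measurable b := (measurable_radial g₀ hF x).comp (Lf f).continuous.measurable
  have hbC : ∀ v, |b v| ≤ C := fun v => abs_radial_le g₀ hC hC0 x _
  have h1 : sphAvg g a x = avgB B (fun v => radial g a x (Lf f v)) :=
    (avgB_comp (innerB g x) (Lf_injective f) (fun v => radial g a x v)).symm
  have h2 : ∀ v : EV n, radial g a x (Lf f v) = b (‖v‖⁻¹ • v) := by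
    intro v
    by_cases hv : v = 0
    · subst hv
      simp only [hb, smul_zero, map_zero]
      rw [radial_zero', radial_zero']
    · have hw : Lf f v ≠ 0 := fun h => hv (Lf_injective f (h.trans (map_zero _).symm))
      have hvn : 0 < ‖v‖⁻¹ := inv_pos.2 (norm_pos_iff.2 hv)
      have e1 : b (‖v‖⁻¹ • v) = radial g₀ F x (Lf f v) := by
        simp only [hb, map_smul]
        exact radial_pos_smul g₀ F x (Lf f v) hvn
      rw [e1, radial_ne g a x hw, ha]
      have hpos : 0 < (Real.sqrt (g.inner x (Lf f v) (Lf f v)))⁻¹ :=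
        inv_pos.2 (Real.sqrt_pos.2 (g.pos x _ hw))
      exact radial_pos_smul g₀ F x (Lf f v) hpos
  have h3 := avgB_dir (form_symm g f) (form_pos g f) hbm hbC (u := e0 n) (by simp)
  rw [h1]
  simp only [h2]
  refine h3.trans ?_
  rw [← GG_eq_gramE]
  congr 1
  refine integral_congr_ae (Eventually.of_forall fun A => ?_)
  have h4 : innerB g₀ f.pt (Lf f (act A (e0 n))) (Lf f (act A (e0 n))) = 1 := by
    rw [inner_Lf, real_inner_self_eq_norm_sq, norm_act]
    simp
  have h5 : b (act A (e0 n)) = F ((Fr.rot A f).ut 0) := by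
    refine (radial_unit g₀ F x (Lf f (act A (e0 n))) h4).trans ?_
    congr 1
    apply Subtype.ext
    exact congrArg (fun w : TangentSpace 𝓘(ℝ, EV n) f.pt =>
      (⟨f.pt, w⟩ : TangentBundle 𝓘(ℝ, EV n) M)) (rot_e_zero A f).symm
  have h6 : gauge ((innerB g f.pt).bilinearComp (Lf f) (Lf f)) (act A (e0 n)) =
      (Real.sqrt (GG g (Fr.rot A f) 0 0))⁻¹ := by
    unfold gauge
    congr 2
    change innerB g f.pt (Lf f (act A (e0 n))) (Lf f (act A (e0 n))) =
      g.inner f.pt ((Fr.rot A f).e 0) ((Fr.rot A f).e 0)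
    rw [rot_e_zero]
    rfl
  simp only [h5, h6]

/-- integrals of functions of the base point -/
theorem integral_pt (hm₀ : IsLiouville g₀ μ₀ m₀)
    (hproj : MeasurePreserving (fun f : Fr g₀ => f.ut 0) mP m₀) {φ : M → ℝ} (hφ : Continuous φ) :
    ∫ f : Fr g₀, φ f.pt ∂mP = (∫ x, φ x ∂μ₀) / μ₀.real univ := by
  have hc : Continuous (fun p : UT g₀ => φ p.pt) := hφ.comp (continuous_pt g₀)
  have h1 := hm₀.2 _ hc
  have h2 : ∫ p, φ p.pt ∂m₀ = ∫ f : Fr g₀, φ f.pt ∂mP := by
    rw [← hproj.map_eq, integral_map hproj.measurable.aemeasurable hc.aestronglyMeasurable]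
    rfl
  rw [← h2, h1]
  congr 1
  refine integral_congr_ae (Eventually.of_forall fun x => ?_)
  obtain ⟨f, hf⟩ := exists_frame g₀ x
  subst hf
  rw [sphAvg_eq_haar g₀ hc f.pt (Lf f) (inner_Lf f) (u := e0 n) (by simp)]
  have h3 : ∀ A : OG n, radial g₀ (fun p => φ p.pt) f.pt (Lf f (act A (e0 n))) = φ f.pt := by
    intro A
    have h4 : innerB g₀ f.pt (Lf f (act A (e0 n))) (Lf f (act A (e0 n))) = 1 := by
      rw [inner_Lf, real_inner_self_eq_norm_sq, norm_act]
      simp
    exact radial_unit g₀ (fun p => φ p.pt) f.pt (Lf f (act A (e0 n))) h4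
  simp only [h3]
  simp

/-- the Liouville measure of `g` in terms of the frames of `g₀` -/
theorem integral_liou (hμ₀ : IsRiemVol g₀ μ₀) (hm₀ : IsLiouville g₀ μ₀ m₀) (hμ : IsRiemVol g μ)
    (hm : IsLiouville g μ m) [IsProbabilityMeasure mP]
    (hrot : ∀ A : OG n, MeasurePreserving (Fr.rot A : Fr g₀ → Fr g₀) mP mP)
    (hproj : MeasurePreserving (fun f : Fr g₀ => f.ut 0) mP m₀)
    {F : UT g₀ → ℝ} (hF : Continuous F) {a : UT g → ℝ} (hac : Continuous a)
    (ha : ∀ p, a p = radial g₀ F p.pt p.vec) :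
    ∫ p, a p ∂m = μ₀.real univ / μ.real univ *
      ∫ f : Fr g₀, F (f.ut 0) * ((GG g f).det * (Real.sqrt (GG g f 0 0))⁻¹ ^ n) ∂mP := by
  have hpos00 : ∀ f : Fr g₀, 0 < GG g f 0 0 := by
    intro f
    refine g.pos f.pt _ fun h => ?_
    have h1 : g₀.inner f.pt (f.e 0) (f.e 0) = 1 := (f.2 0 0).trans (if_pos rfl)
    rw [h] at h1
    simp at h1
  set h : Fr g₀ → ℝ := fun f => F (f.ut 0) * ((GG g f).det * (Real.sqrt (GG g f 0 0))⁻¹ ^ n)
    with hh
  have hhc : Continuous h := by
    refine (hF.comp (Fr.continuous_ut 0)).mul ((continuous_GG g).matrix_det.mul ?_)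
    refine ((Real.continuous_sqrt.comp (continuous_GG_apply g 0 0)).inv₀ fun f => ?_).pow n
    exact (Real.sqrt_pos.2 (hpos00 f)).ne'
  have h1 := hm.2 a hac
  have h2 := integral_vol hμ₀ hμ (sphAvg g a)
  have hsc : Continuous (fun x => sphAvg g a x * rho g₀ g x) :=
    (continuous_sphAvg (NeZero.one_le) hac).mul (continuous_rho g₀ g)
  have h3 := integral_pt hm₀ hproj hsc
  have h4 : ∀ f : Fr g₀, sphAvg g a f.pt * rho g₀ g f.pt = fAvg h f := by
    intro f
    rw [sphAvg_frame hF ha f, rho_pt]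
    have h5 : Real.sqrt (GG g f).det * Real.sqrt (GG g f).det = (GG g f).det :=
      Real.mul_self_sqrt (GG_det_pos g f).le
    calc _ = (Real.sqrt (GG g f).det * Real.sqrt (GG g f).det) *
          ∫ A, F ((Fr.rot A f).ut 0) * (Real.sqrt (GG g (Fr.rot A f) 0 0))⁻¹ ^ n
            ∂haarP (OG n) := by ring
      _ = _ := by
        rw [h5, ← integral_const_mul]
        unfold fAvg
        refine integral_congr_ae (Eventually.of_forall fun A => ?_)
        simp only [hh]
        have h6 : (GG g (Fr.rot A f)).det = (GG g f).det := by rw [GG_rot, det_conj]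
        rw [h6]
        ring
  simp only [h4] at h3
  rw [integral_fAvg hrot hhc] at h3
  rw [h1, h2, h3]
  have hμ₀pos := hm₀.vol_pos
  field_simp

/-- the volume of `g` in terms of the frames of `g₀` -/
theorem volume_frames (hμ₀ : IsRiemVol g₀ μ₀) (hm₀ : IsLiouville g₀ μ₀ m₀) (hμ : IsRiemVol g μ)
    (hproj : MeasurePreserving (fun f : Fr g₀ => f.ut 0) mP m₀) :
    ∫ f : Fr g₀, Real.sqrt (GG g f).det ∂mP = μ.real univ / μ₀.real univ := by
  have h1 := integral_vol hμ₀ hμ (fun _ => (1 : ℝ))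
  have h2 := integral_pt hm₀ hproj (continuous_rho g₀ g)
  simp only [rho_pt] at h2
  simp only [integral_const, smul_eq_mul, mul_one, one_mul] at h1
  rw [h2, h1]

/-! ### fibre averages -/

theorem integral_KK00 [IsProbabilityMeasure mP]
    (hrot : ∀ A : OG n, MeasurePreserving (Fr.rot A : Fr g₀ → Fr g₀) mP mP) {ψ : Fr g₀ → ℝ}
    (hψ : Continuous ψ) (hinv : ∀ (A : OG n) f, ψ (Fr.rot A f) = ψ f) :
    ∫ f, ψ f * KK g f 0 0 ∂mP = ∫ f, ψ f * ((KK g f).trace / n) ∂mP := by
  have hc : Continuous (fun f => ψ f * KK g f 0 0) := hψ.mul (continuous_KK_apply g 0 0)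
  rw [← integral_fAvg hrot hc]
  refine integral_congr_ae (Eventually.of_forall fun f => ?_)
  change ∫ A, ψ (Fr.rot A f) * KK g (Fr.rot A f) 0 0 ∂haarP (OG n) = _
  simp only [hinv, KK_rot_zero]
  rw [integral_const_mul]
  congr 1
  exact IH_qf (KK_isSymm g f)

theorem integral_KK00_sq [IsProbabilityMeasure mP]
    (hrot : ∀ A : OG n, MeasurePreserving (Fr.rot A : Fr g₀ → Fr g₀) mP mP) {ψ : Fr g₀ → ℝ}
    (hψ : Continuous ψ) (hinv : ∀ (A : OG n) f, ψ (Fr.rot A f) = ψ f) :
    ∫ f, ψ f * KK g f 0 0 ^ 2 ∂mP =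
      ∫ f, ψ f * (((KK g f).trace ^ 2 + 2 * nsq (KK g f)) / (n * (n + 2))) ∂mP := by
  have hc : Continuous (fun f => ψ f * KK g f 0 0 ^ 2) := hψ.mul ((continuous_KK_apply g 0 0).pow 2)
  rw [← integral_fAvg hrot hc]
  refine integral_congr_ae (Eventually.of_forall fun f => ?_)
  change ∫ A, ψ (Fr.rot A f) * KK g (Fr.rot A f) 0 0 ^ 2 ∂haarP (OG n) = _
  simp only [hinv, KK_rot_zero]
  rw [integral_const_mul]
  congr 1
  exact IH_qf_sq (KK_isSymm g f)

end Vale.Agent.P207.H992
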