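import Vale.Agent.P207.H992.MeasD

/-!
# P207, block MEAS, part E: second order expansion of the integrals of the stretch
-/

open scoped Manifold ContDiff ENNReal Topology
open Bundle MeasureTheory Set Filter Asymptotics

noncomputable section

set_option linter.unusedSectionVars false

namespace Vale.Agent.P207.H992

open Vale.Agent.P255 (RMetric coefIn Gam Riem IsGeo Metric trans coefL)
open Vale.Agent.P207.Q (Fr)
open Vale.Agent.P207.Q.H892

/-- uniform expansions of the densities, with constants depending only on the dimension -/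
structure Consts (n : ℕ) [NeZero n] (C ε : ℝ) : Prop where
  nonneg : 0 ≤ C
  pos : 0 < ε
  le_one : ε ≤ 1
  vol : ∀ (K : Matrix (Fin n) (Fin n) ℝ) κ, 0 ≤ κ → κ ≤ ε → SmallSym K κ →
    |Real.sqrt (1 + K).det - (1 + K.trace / 2 + (K.trace ^ 2 / 8 - nsq K / 4))| ≤ C * κ ^ 3
  liou : ∀ (K : Matrix (Fin n) (Fin n) ℝ) κ, 0 ≤ κ → κ ≤ ε → SmallSym K κ →
    |(1 + K).det * (Real.sqrt (1 + K 0 0))⁻¹ ^ n - 1| ≤ C * κ
  liou2 : ∀ (K : Matrix (Fin n) (Fin n) ℝ) κ, 0 ≤ κ → κ ≤ ε → SmallSym K κ →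
    |(1 - K 0 0 / 2 + 3 / 8 * K 0 0 ^ 2) * ((1 + K).det * (Real.sqrt (1 + K 0 0))⁻¹ ^ n) -
      (1 + (K.trace - (n + 1) / 2 * K 0 0) + ((K.trace ^ 2 - nsq K) / 2 +
        (n + 1) * (n + 3) / 8 * K 0 0 ^ 2 - (n + 1) / 2 * K 0 0 * K.trace))| ≤ C * κ ^ 3

theorem exists_consts (n : ℕ) [NeZero n] : ∃ C ε, Consts n C ε := by
  have ht := tendsto_uF (SmallSym (n := n))
  obtain ⟨C₁, ε₁, hC₁, hε₁, h₁⟩ := bound_of_uF (k := 3) (f := fun K : Matrix (Fin n) (Fin n) ℝ =>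
    Real.sqrt (1 + K).det - (1 + K.trace / 2 + (K.trace ^ 2 / 8 - nsq K / 4))) E2_sqrt_det.rem
  have h2 : (fun x : Matrix (Fin n) (Fin n) ℝ × ℝ => (1 + x.1).det *
      (Real.sqrt (1 + x.1 0 0))⁻¹ ^ n - 1) =O[uF SmallSym] fun x => x.2 ^ 1 := by
    have hE := E2_liou (n := n)
    have e1 : (fun x : Matrix (Fin n) (Fin n) ℝ × ℝ => x.2 ^ 3) =O[uF SmallSym]
        fun x => x.2 ^ 1 :=
      isBigO_of_bdd (ht.isBigO_one ℝ) (by norm_num) (isBigO_refl _ _)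
    have e2 : (fun x : Matrix (Fin n) (Fin n) ℝ × ℝ => x.2 ^ 2) =O[uF SmallSym]
        fun x => x.2 ^ 1 :=
      isBigO_of_bdd (ht.isBigO_one ℝ) (by norm_num) (isBigO_refl _ _)
    have e3 : (fun x : Matrix (Fin n) (Fin n) ℝ × ℝ => x.2) =O[uF SmallSym]
        fun x => x.2 ^ 1 := by simpa using isBigO_refl _ _
    refine (((hE.rem.trans e1).add (hE.b1.trans e3)).add (hE.b2.trans e2)).congr_left fun x => ?_
    ring
  obtain ⟨C₂, ε₂, hC₂, hε₂, h₂⟩ := bound_of_uF (k := 1) (f := fun K : Matrix (Fin n) (Fin n) ℝ =>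
    (1 + K).det * (Real.sqrt (1 + K 0 0))⁻¹ ^ n - 1) h2
  have h3 : E2 (uF (SmallSym (n := n))) (fun x => x.2)
      (fun x => (1 - x.1 0 0 / 2 + 3 / 8 * x.1 0 0 ^ 2) *
        ((1 + x.1).det * (Real.sqrt (1 + x.1 0 0))⁻¹ ^ n))
      (fun x => x.1.trace - (n + 1) / 2 * x.1 0 0)
      (fun x => (x.1.trace ^ 2 - nsq x.1) / 2 +
        (n + 1) * (n + 3) / 8 * x.1 0 0 ^ 2 - (n + 1) / 2 * x.1 0 0 * x.1.trace) := by
    have h5 : (fun x : Matrix (Fin n) (Fin n) ℝ × ℝ => -(x.1 0 0 / 2)) =O[uF SmallSym]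
        fun x => x.2 :=
      ((entry_isBigO (n := n) 0 0).const_mul_left (-1 / 2)).congr_left fun x => by ring
    have h6 : (fun x : Matrix (Fin n) (Fin n) ℝ × ℝ => 3 / 8 * x.1 0 0 ^ 2) =O[uF SmallSym]
        fun x => x.2 ^ 2 := ((entry_isBigO (n := n) 0 0).pow 2).const_mul_left _
    have h7 := (E2.exact h5 h6).congr' (a' := fun x => 1 - x.1 0 0 / 2 + 3 / 8 * x.1 0 0 ^ 2)
      (fun x => by ring) (fun _ => rfl) (fun _ => rfl)
    refine (h7.mul E2_liou (ht.isBigO_one ℝ)).congr' (fun _ => rfl) (fun x => ?_) (fun x => ?_)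
    · ring
    · ring
  obtain ⟨C₃, ε₃, hC₃, hε₃, h₃⟩ := bound_of_uF (k := 3) (f := fun K : Matrix (Fin n) (Fin n) ℝ =>
    (1 - K 0 0 / 2 + 3 / 8 * K 0 0 ^ 2) * ((1 + K).det * (Real.sqrt (1 + K 0 0))⁻¹ ^ n) -
      (1 + (K.trace - (n + 1) / 2 * K 0 0) + ((K.trace ^ 2 - nsq K) / 2 +
        (n + 1) * (n + 3) / 8 * K 0 0 ^ 2 - (n + 1) / 2 * K 0 0 * K.trace))) h3.rem
  refine ⟨C₁ + C₂ + C₃, min (min ε₁ ε₂) (min ε₃ 1), by positivity,
    lt_min (lt_min hε₁ hε₂) (lt_min hε₃ one_pos), (min_le_right _ _).trans (min_le_right _ _),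
    ?_, ?_, ?_⟩
  · intro K κ h0 h hK
    refine (h₁ K κ h0 (h.trans ((min_le_left _ _).trans (min_le_left _ _))) hK).trans ?_
    exact mul_le_mul_of_nonneg_right (by linarith) (by positivity)
  · intro K κ h0 h hK
    refine (h₂ K κ h0 (h.trans ((min_le_left _ _).trans (min_le_right _ _))) hK).trans ?_
    rw [pow_one]
    exact mul_le_mul_of_nonneg_right (by linarith) h0
  · intro K κ h0 h hK
    refine (h₃ K κ h0 (h.trans ((min_le_right _ _).trans (min_le_left _ _))) hK).trans ?_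
    exact mul_le_mul_of_nonneg_right (by linarith) (by positivity)

variable {n : ℕ} {M : Type} [TopologicalSpace M] [ChartedSpace (EV n) M]
  [IsManifold 𝓘(ℝ, EV n) ∞ M] {g₀ : RMetric (EV n) M} [CompactSpace M] [T2Space M] [NeZero n]
  [MeasurableSpace M] [BorelSpace M] {μ₀ μ : Measure M} {g : RMetric (EV n) M}
  {m₀ : Measure (UT g₀)} {m : Measure (UT g)} {mP : Measure (Fr g₀)}

/-- `u(v) = g(v,v) - 1` on the `g₀`-unit vectors -/
def uu (g : RMetric (EV n) M) (p : UT g₀) : ℝ := g.inner p.pt p.vec p.vec - 1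

theorem uu_ut (g : RMetric (EV n) M) (f : Fr g₀) : uu g (f.ut 0) = KK g f 0 0 := rfl

theorem continuous_uu (g : RMetric (EV n) M) : Continuous (uu (g₀ := g₀) g) := by
  have h := isBdl_ut g₀
  have hq : Topology.IsQuotientMap (fun f : Fr g₀ => f.ut 0) := by
    have := compactSpace_UT g₀
    have := t2Space_UT g₀
    exact h.cont.isClosedMap.isQuotientMap h.cont h.surj
  rw [hq.continuous_iff]
  exact continuous_KK_apply g 0 0

/-- the data of the two metrics -/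
structure Setup (g₀ g : RMetric (EV n) M) (μ₀ μ : Measure M) (m₀ : Measure (UT g₀))
    (m : Measure (UT g)) (mP : Measure (Fr g₀)) : Prop where
  hμ₀ : IsRiemVol g₀ μ₀
  hm₀ : IsLiouville g₀ μ₀ m₀
  hμ : IsRiemVol g μ
  hm : IsLiouville g μ m
  prob : IsProbabilityMeasure mP
  rot : ∀ A : OG n, MeasurePreserving (Fr.rot A : Fr g₀ → Fr g₀) mP mP
  proj : MeasurePreserving (fun f : Fr g₀ => f.ut 0) mP m₀
  vol : μ.real univ = μ₀.real univ

theorem integrable_Fr [IsProbabilityMeasure mP] {h : Fr g₀ → ℝ} (hh : Continuous h) :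
    Integrable h mP :=
  hh.integrable_of_hasCompactSupport (HasCompactSupport.of_compactSpace _)

theorem int_lin {F₁ F₂ F₃ F₄ : Fr g₀ → ℝ} [IsProbabilityMeasure mP] (h₁ : Integrable F₁ mP)
    (h₂ : Integrable F₂ mP) (h₃ : Integrable F₃ mP) (h₄ : Integrable F₄ mP)
    (c₀ c₁ c₂ c₃ c₄ : ℝ) :
    ∫ f, (c₀ + c₁ * F₁ f + c₂ * F₂ f + c₃ * F₃ f + c₄ * F₄ f) ∂mP =
      c₀ + c₁ * ∫ f, F₁ f ∂mP + c₂ * ∫ f, F₂ f ∂mP + c₃ * ∫ f, F₃ f ∂mP +
        c₄ * ∫ f, F₄ f ∂mP := by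
  have a1 : Integrable (fun f => c₀ + c₁ * F₁ f) mP := (integrable_const _).add (h₁.const_mul _)
  have a2 : Integrable (fun f => c₀ + c₁ * F₁ f + c₂ * F₂ f) mP := a1.add (h₂.const_mul _)
  have a3 : Integrable (fun f => c₀ + c₁ * F₁ f + c₂ * F₂ f + c₃ * F₃ f) mP :=
    a2.add (h₃.const_mul _)
  rw [integral_add a3 (h₄.const_mul _), integral_add a2 (h₃.const_mul _),
    integral_add a1 (h₂.const_mul _), integral_add (integrable_const _) (h₁.const_mul _),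
    integral_const_mul, integral_const_mul, integral_const_mul, integral_const_mul]
  simp only [integral_const, probReal_univ, one_smul]

theorem int_lin3 {F₁ F₂ F₃ : Fr g₀ → ℝ} (h₁ : Integrable F₁ mP)
    (h₂ : Integrable F₂ mP) (h₃ : Integrable F₃ mP) :
    ∫ f, (F₁ f + F₂ f + F₃ f) ∂mP =
      ∫ f, F₁ f ∂mP + ∫ f, F₂ f ∂mP + ∫ f, F₃ f ∂mP := by
  have a2 : Integrable (fun f => F₁ f + F₂ f) mP := h₁.add h₂
  rw [integral_add a2 h₃, integral_add h₁ h₂]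

/-- the trace is of second order -/
theorem trace_bound {C ε : ℝ} (hC : Consts n C ε) (S : Setup g₀ g μ₀ μ m₀ m mP) {κ : ℝ}
    (hκ0 : 0 ≤ κ) (hκ : κ ≤ ε) (hK : ∀ (f : Fr g₀) i j, |KK g f i j| ≤ κ) :
    |∫ f, (KK g f).trace ∂mP + 1 / 4 * ∫ f, (KK g f).trace ^ 2 ∂mP -
      1 / 2 * ∫ f, nsq (KK g f) ∂mP| ≤ 2 * C * κ ^ 3 := by
  have := S.prob
  have h1 := volume_frames (mP := mP) S.hμ₀ S.hm₀ S.hμ S.proj
  have hpos := S.hm₀.vol_pos
  rw [S.vol, div_self hpos.ne'] at h1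
  have i1 : Integrable (fun f : Fr g₀ => (KK g f).trace) mP := integrable_Fr (continuous_trace_KK g)
  have i2 : Integrable (fun f : Fr g₀ => (KK g f).trace ^ 2) mP :=
    integrable_Fr ((continuous_trace_KK g).pow 2)
  have i3 : Integrable (fun f : Fr g₀ => nsq (KK g f)) mP := integrable_Fr (continuous_nsq_KK g)
  have i4 : Integrable (fun f : Fr g₀ => Real.sqrt (GG g f).det) mP :=
    integrable_Fr (Real.continuous_sqrt.comp (continuous_GG g).matrix_det)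
  have h2 : ∫ f : Fr g₀, (Real.sqrt (GG g f).det - (1 + (KK g f).trace / 2 +
      ((KK g f).trace ^ 2 / 8 - nsq (KK g f) / 4))) ∂mP =
      -(1 / 2) * (∫ f, (KK g f).trace ∂mP + 1 / 4 * ∫ f, (KK g f).trace ^ 2 ∂mP -
      1 / 2 * ∫ f, nsq (KK g f) ∂mP) := by
    have e := int_lin i4 i1 i2 i3 (-1) 1 (-(1 / 2)) (-(1 / 8)) (1 / 4)
    rw [h1] at e
    refine Eq.trans (integral_congr_ae (Eventually.of_forall fun f => ?_)) (e.trans ?_)
    · ring
    · ring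
  have h3 : |∫ f : Fr g₀, (Real.sqrt (GG g f).det - (1 + (KK g f).trace / 2 +
      ((KK g f).trace ^ 2 / 8 - nsq (KK g f) / 4))) ∂mP| ≤ C * κ ^ 3 := by
    have h4 := norm_integral_le_of_norm_le_const (μ := mP) (C := C * κ ^ 3)
      (f := fun f : Fr g₀ => Real.sqrt (GG g f).det - (1 + (KK g f).trace / 2 +
      ((KK g f).trace ^ 2 / 8 - nsq (KK g f) / 4))) (Eventually.of_forall fun f => by
        have h5 := hC.vol (KK g f) κ hκ0 hκ ⟨KK_isSymm g f, hK f⟩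
        rw [one_add_KK] at h5
        exact h5)
    simpa using h4
  rw [h2, abs_mul] at h3
  have h5 : |(-(1 / 2) : ℝ)| = 1 / 2 := by norm_num
  rw [h5] at h3
  linarith

/-- second order expansion of the mean stretch `g₀ → g` -/
theorem stretch_A {C ε : ℝ} (hC : Consts n C ε) (S : Setup g₀ g μ₀ μ m₀ m mP) {κ : ℝ}
    (hκ0 : 0 ≤ κ) (hκ : κ ≤ ε) (hK : ∀ (f : Fr g₀) i j, |KK g f i j| ≤ κ) :
    |∫ f : Fr g₀, (1 + KK g f 0 0 / 2 - KK g f 0 0 ^ 2 / 8) ∂mP -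
      (1 + 1 / (4 * n) * ∫ f, nsq (KK g f) ∂mP - 1 / (8 * n) * ∫ f, (KK g f).trace ^ 2 ∂mP -
        1 / 8 * ∫ f : Fr g₀, KK g f 0 0 ^ 2 ∂mP)| ≤ C * κ ^ 3 := by
  have := S.prob
  have hn : (1 : ℝ) ≤ n := by exact_mod_cast NeZero.one_le
  have h0 := trace_bound hC S hκ0 hκ hK
  have h1 := integral_KK00 (g := g) S.rot (ψ := fun _ => 1) continuous_const (fun _ _ => rfl)
  simp only [one_mul] at h1
  have i1 : Integrable (fun f : Fr g₀ => KK g f 0 0) mP := integrable_Fr (continuous_KK_apply g 0 0)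
  have i2 : Integrable (fun f : Fr g₀ => KK g f 0 0 ^ 2) mP :=
    integrable_Fr ((continuous_KK_apply g 0 0).pow 2)
  have h2 : ∫ f : Fr g₀, (1 + KK g f 0 0 / 2 - KK g f 0 0 ^ 2 / 8) ∂mP =
      1 + 1 / (2 * n) * ∫ f, (KK g f).trace ∂mP - 1 / 8 * ∫ f : Fr g₀, KK g f 0 0 ^ 2 ∂mP := by
    have e := int_lin i1 i2 i2 i2 1 (1 / 2) (-(1 / 8)) 0 0
    rw [h1, integral_div] at e
    refine Eq.trans (integral_congr_ae (Eventually.of_forall fun f => ?_)) (e.trans ?_)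
    · ring
    · field_simp
      ring
  rw [h2]
  have e : 1 + 1 / (2 * n) * ∫ f, (KK g f).trace ∂mP - 1 / 8 * ∫ f : Fr g₀, KK g f 0 0 ^ 2 ∂mP -
      (1 + 1 / (4 * n) * ∫ f, nsq (KK g f) ∂mP - 1 / (8 * n) * ∫ f, (KK g f).trace ^ 2 ∂mP -
        1 / 8 * ∫ f : Fr g₀, KK g f 0 0 ^ 2 ∂mP) =
      1 / (2 * n) * (∫ f, (KK g f).trace ∂mP + 1 / 4 * ∫ f, (KK g f).trace ^ 2 ∂mP -
        1 / 2 * ∫ f, nsq (KK g f) ∂mP) := by
    field_simp
    ring
  rw [e, abs_mul, abs_of_nonneg (by positivity)]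
  calc 1 / (2 * (n : ℝ)) * _ ≤ 1 / (2 * n) * (2 * C * κ ^ 3) :=
        mul_le_mul_of_nonneg_left h0 (by positivity)
    _ = C * κ ^ 3 / n := by field_simp
    _ ≤ C * κ ^ 3 := div_le_self (mul_nonneg hC.nonneg (by positivity)) hn

/-- the density of the Liouville measure of `g` on the frames of `g₀` -/
def DD (g : RMetric (EV n) M) (f : Fr g₀) : ℝ := (GG g f).det * (Real.sqrt (GG g f 0 0))⁻¹ ^ n

theorem GG00_pos (g : RMetric (EV n) M) (f : Fr g₀) : 0 < GG g f 0 0 := by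
  refine g.pos f.pt _ fun h => ?_
  have h1 : g₀.inner f.pt (f.e 0) (f.e 0) = 1 := (f.2 0 0).trans (if_pos rfl)
  rw [h] at h1
  simp at h1

theorem continuous_DD (g : RMetric (EV n) M) : Continuous (DD (g₀ := g₀) g) := by
  refine (continuous_GG g).matrix_det.mul ?_
  refine ((Real.continuous_sqrt.comp (continuous_GG_apply g 0 0)).inv₀ fun f => ?_).pow n
  exact (Real.sqrt_pos.2 (GG00_pos g f)).ne'

theorem DD_nonneg (g : RMetric (EV n) M) (f : Fr g₀) : 0 ≤ DD g f :=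
  mul_nonneg (GG_det_pos g f).le (pow_nonneg (inv_nonneg.2 (Real.sqrt_nonneg _)) _)

/-- second order expansion of the integral of `1 - u/2 + (3/8) u² + R` against the Liouville
measure of `g`, on the frames of `g₀` -/
theorem stretch_core {C ε : ℝ} (hC : Consts n C ε) (S : Setup g₀ g μ₀ μ m₀ m mP) {κ : ℝ}
    (hκ0 : 0 ≤ κ) (hκ : κ ≤ ε) (hK : ∀ (f : Fr g₀) i j, |KK g f i j| ≤ κ)
    {R : Fr g₀ → ℝ} (cR : Continuous R) {r : ℝ} (hRr : ∀ p, |R p| ≤ r) :
    |∫ f : Fr g₀, (1 - KK g f 0 0 / 2 + 3 / 8 * KK g f 0 0 ^ 2 + R f) * DD g f ∂mP -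
      (1 + 1 / (4 * n) * ∫ f, nsq (KK g f) ∂mP - 1 / (8 * n) * ∫ f, (KK g f).trace ^ 2 ∂mP -
        1 / 8 * ∫ f : Fr g₀, KK g f 0 0 ^ 2 ∂mP + ∫ f, R f ∂mP)| ≤ 2 * C * κ ^ 3 + C * κ * r := by
  have := S.prob
  have hn : (1 : ℝ) ≤ n := by exact_mod_cast NeZero.one_le
  have h0 := trace_bound hC S hκ0 hκ hK
  have hr0 : 0 ≤ r := by
    obtain ⟨f⟩ : Nonempty (Fr g₀) := Measure.nonempty_of_neZero mP
    exact (abs_nonneg _).trans (hRr f)
  set D : Fr g₀ → ℝ := DD g with hD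
  have hDc : Continuous D := continuous_DD g
  have hD1 : ∀ f : Fr g₀, |D f - 1| ≤ C * κ := by
    intro f
    have h := hC.liou (KK g f) κ hκ0 hκ ⟨KK_isSymm g f, hK f⟩
    rw [one_add_KK] at h
    have e : 1 + KK g f 0 0 = GG g f 0 0 := by
      have := congrFun (congrFun (one_add_KK g f) 0) 0
      rwa [Matrix.add_apply, Matrix.one_apply_eq] at this
    rw [e] at h
    exact h
  set P : Fr g₀ → ℝ := fun f => 1 + ((KK g f).trace - (n + 1) / 2 * KK g f 0 0) +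
    (((KK g f).trace ^ 2 - nsq (KK g f)) / 2 +
        (n + 1) * (n + 3) / 8 * KK g f 0 0 ^ 2 - (n + 1) / 2 * KK g f 0 0 * (KK g f).trace) with hP
  set Q : Fr g₀ → ℝ := fun f => (1 - KK g f 0 0 / 2 + 3 / 8 * KK g f 0 0 ^ 2) * D f - P f with hQ
  have hQ1 : ∀ f : Fr g₀, |Q f| ≤ C * κ ^ 3 := by
    intro f
    have h := hC.liou2 (KK g f) κ hκ0 hκ ⟨KK_isSymm g f, hK f⟩
    rw [one_add_KK] at h
    have e : 1 + KK g f 0 0 = GG g f 0 0 := by
      have := congrFun (congrFun (one_add_KK g f) 0) 0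
      rwa [Matrix.add_apply, Matrix.one_apply_eq] at this
    rw [e] at h
    exact h
  have c0 := continuous_KK_apply (g₀ := g₀) g 0 0
  have ct := continuous_trace_KK (g₀ := g₀) g
  have cn := continuous_nsq_KK (g₀ := g₀) g
  have c02 : Continuous (fun f : Fr g₀ => KK g f 0 0 ^ 2) := c0.pow 2
  have ct2 : Continuous (fun f : Fr g₀ => (KK g f).trace ^ 2) := ct.pow 2
  have c0t : Continuous (fun f : Fr g₀ => (KK g f).trace * KK g f 0 0) := ct.mul c0
  have cP : Continuous P := by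
    have k1 : Continuous (fun f : Fr g₀ => (KK g f).trace - (n + 1) / 2 * KK g f 0 0) :=
      ct.sub (continuous_const.mul c0)
    have k2 : Continuous (fun f : Fr g₀ => ((KK g f).trace ^ 2 - nsq (KK g f)) / 2) :=
      (ct2.sub cn).div_const 2
    have k3 : Continuous (fun f : Fr g₀ => ((n : ℝ) + 1) * (n + 3) / 8 * KK g f 0 0 ^ 2) :=
      continuous_const.mul c02
    have k4 : Continuous (fun f : Fr g₀ => ((n : ℝ) + 1) / 2 * KK g f 0 0 * (KK g f).trace) :=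
      (continuous_const.mul c0).mul ct
    exact (continuous_const.add k1).add ((k2.add k3).sub k4)
  have cQ : Continuous Q := by
    have k1 : Continuous (fun f : Fr g₀ => 1 - KK g f 0 0 / 2 + 3 / 8 * KK g f 0 0 ^ 2) :=
      (continuous_const.sub (c0.div_const 2)).add (continuous_const.mul c02)
    exact (k1.mul hDc).sub cP
  have cRD : Continuous (fun f : Fr g₀ => R f * (D f - 1)) := cR.mul (hDc.sub continuous_const)
  have h2 : ∫ f : Fr g₀, (1 - KK g f 0 0 / 2 + 3 / 8 * KK g f 0 0 ^ 2 + R f) * D f ∂mP =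
      ∫ f, P f ∂mP + ∫ f : Fr g₀, R f ∂mP + ∫ f, Q f ∂mP +
      ∫ f : Fr g₀, R f * (D f - 1) ∂mP := by
    have k := int_lin (integrable_Fr (mP := mP) cP) (integrable_Fr (mP := mP) cR)
      (integrable_Fr (mP := mP) cQ) (integrable_Fr (mP := mP) cRD) 0 1 1 1 1
    refine Eq.trans (integral_congr_ae (Eventually.of_forall fun f => ?_)) (k.trans ?_)
    · change (1 - KK g f 0 0 / 2 + 3 / 8 * KK g f 0 0 ^ 2 + R f) * D f =
        0 + 1 * P f + 1 * R f + 1 * Q f + 1 * (R f * (D f - 1))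
      rw [hQ]
      ring
    · ring
  have h3 : |∫ f, Q f ∂mP| ≤ C * κ ^ 3 := by
    have h4 := norm_integral_le_of_norm_le_const (μ := mP) (C := C * κ ^ 3)
      (f := Q) (Eventually.of_forall fun f => hQ1 f)
    simpa using h4
  have h4 : |∫ f : Fr g₀, R f * (D f - 1) ∂mP| ≤ C * κ * r := by
    have h4 := norm_integral_le_of_norm_le_const (μ := mP) (C := C * κ * r)
      (f := fun f : Fr g₀ => R f * (D f - 1)) (Eventually.of_forall fun f => by
        rw [norm_mul, mul_comm (C * κ)]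
        exact mul_le_mul (hRr _) (hD1 f) (norm_nonneg _) hr0)
    simpa using h4
  -- the main part
  have e1 := integral_KK00 (g := g) S.rot (ψ := fun _ => 1) continuous_const (fun _ _ => rfl)
  have e2 := integral_KK00_sq (g := g) S.rot (ψ := fun _ => 1) continuous_const (fun _ _ => rfl)
  have e3 := integral_KK00 (g := g) S.rot (ψ := fun f => (KK g f).trace) ct
    (fun A f => by rw [KK_rot, trace_conj])
  simp only [one_mul] at e1 e2
  have e3' : ∫ f : Fr g₀, (KK g f).trace * ((KK g f).trace / n) ∂mP =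
      (∫ f : Fr g₀, (KK g f).trace ^ 2 ∂mP) / n := by
    rw [← integral_div]
    refine integral_congr_ae (Eventually.of_forall fun f => ?_)
    ring
  have e2' : ∫ f : Fr g₀, ((KK g f).trace ^ 2 + 2 * nsq (KK g f)) / (n * (n + 2)) ∂mP =
      (∫ f : Fr g₀, (KK g f).trace ^ 2 ∂mP + 2 * ∫ f : Fr g₀, nsq (KK g f) ∂mP) /
        (n * (n + 2)) := by
    rw [integral_div]
    congr 1
    have := int_lin (integrable_Fr (mP := mP) ct2) (integrable_Fr (mP := mP) cn)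
      (integrable_Fr (mP := mP) cn) (integrable_Fr (mP := mP) cn) 0 1 2 0 0
    refine Eq.trans (integral_congr_ae (Eventually.of_forall fun f => ?_)) (this.trans ?_)
    · ring
    · ring
  have e1' := e1.trans (integral_div _ _)
  have e3'' := e3.trans e3'
  have e2'' := e2.trans e2'
  have hPint : ∫ f, P f ∂mP = 1 + ∫ f, (KK g f).trace ∂mP -
      (n + 1) / 2 * ((∫ f, (KK g f).trace ∂mP) / n) +
      1 / 2 * ∫ f, (KK g f).trace ^ 2 ∂mP - 1 / 2 * ∫ f, nsq (KK g f) ∂mP +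
      (n + 1) * (n + 3) / 8 * ∫ f : Fr g₀, KK g f 0 0 ^ 2 ∂mP -
      (n + 1) / 2 * ((∫ f, (KK g f).trace ^ 2 ∂mP) / n) := by
    have k1 := int_lin (integrable_Fr (mP := mP) ct) (integrable_Fr (mP := mP) c0)
      (integrable_Fr (mP := mP) ct2) (integrable_Fr (mP := mP) cn) 1 1 (-((n + 1) / 2)) (1 / 2)
      (-(1 / 2))
    have k2 := int_lin (integrable_Fr (mP := mP) c02) (integrable_Fr (mP := mP) c0t)
      (integrable_Fr (mP := mP) ct2) (integrable_Fr (mP := mP) cn) 0 ((n + 1) * (n + 3) / 8)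
      (-((n + 1) / 2)) 0 0
    have q1 : Continuous (fun f : Fr g₀ => 1 + 1 * (KK g f).trace + -((n + 1) / 2) * KK g f 0 0 +
        1 / 2 * (KK g f).trace ^ 2 + -(1 / 2) * nsq (KK g f)) :=
      (((continuous_const.add (continuous_const.mul ct)).add (continuous_const.mul c0)).add
        (continuous_const.mul ct2)).add (continuous_const.mul cn)
    have q2 : Continuous (fun f : Fr g₀ => 0 + ((n : ℝ) + 1) * (n + 3) / 8 * KK g f 0 0 ^ 2 +
        -((n + 1) / 2) * ((KK g f).trace * KK g f 0 0) +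
        0 * (KK g f).trace ^ 2 + 0 * nsq (KK g f)) :=
      (((continuous_const.add (continuous_const.mul c02)).add (continuous_const.mul c0t)).add
        (continuous_const.mul ct2)).add (continuous_const.mul cn)
    have k3 := integral_add (integrable_Fr (mP := mP) q1) (integrable_Fr (mP := mP) q2)
    rw [k1, k2, e1', e3''] at k3
    refine Eq.trans (integral_congr_ae (Eventually.of_forall fun f => ?_)) (k3.trans ?_)
    · simp only [hP]
      ring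
    · ring
  set S1 := ∫ f, (KK g f).trace ∂mP with hS1
  set S2 := ∫ f, (KK g f).trace ^ 2 ∂mP with hS2
  set S3 := ∫ f, nsq (KK g f) ∂mP with hS3
  set S4 := ∫ f : Fr g₀, KK g f 0 0 ^ 2 ∂mP with hS4
  rw [h2, hPint]
  have hn2 : (n : ℝ) + 2 ≠ 0 := by positivity
  have hn0 : (n : ℝ) ≠ 0 := by positivity
  have key : 1 + S1 - (n + 1) / 2 * (S1 / n) + 1 / 2 * S2 - 1 / 2 * S3 + (n + 1) * (n + 3) / 8 * S4 -
      (n + 1) / 2 * (S2 / n) + ∫ f, R f ∂mP + ∫ f, Q f ∂mP +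
      ∫ f : Fr g₀, R f * (D f - 1) ∂mP -
      (1 + 1 / (4 * n) * S3 - 1 / (8 * n) * S2 - 1 / 8 * S4 + ∫ f, R f ∂mP) =
      (n - 1) / (2 * n) * (S1 + 1 / 4 * S2 - 1 / 2 * S3) + ∫ f, Q f ∂mP +
      ∫ f : Fr g₀, R f * (D f - 1) ∂mP := by
    have hS4' : S4 = (S2 + 2 * S3) / (n * (n + 2)) := e2''
    have e9 : (n + 1) * (n + 3) / 8 * S4 = (n + 2) ^ 2 / 8 * S4 - 1 / 8 * S4 := by ring
    have e10 : ((n : ℝ) + 2) ^ 2 / 8 * S4 = (n + 2) / (8 * n) * (S2 + 2 * S3) := by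
      rw [hS4']
      field_simp
    rw [e9, e10]
    field_simp
    ring
  rw [key]
  have hc1 : |((n : ℝ) - 1) / (2 * n) * (S1 + 1 / 4 * S2 - 1 / 2 * S3)| ≤ C * κ ^ 3 := by
    rw [abs_mul, abs_of_nonneg (div_nonneg (by linarith) (by positivity))]
    have hle : ((n : ℝ) - 1) / (2 * n) ≤ 1 / 2 := by
      rw [div_le_div_iff₀ (by positivity) (by norm_num)]
      linarith
    calc ((n : ℝ) - 1) / (2 * n) * |S1 + 1 / 4 * S2 - 1 / 2 * S3|
        ≤ 1 / 2 * (2 * C * κ ^ 3) := mul_le_mul hle h0 (abs_nonneg _) (by norm_num)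
      _ = C * κ ^ 3 := by ring
  calc _ ≤ |((n : ℝ) - 1) / (2 * n) * (S1 + 1 / 4 * S2 - 1 / 2 * S3)| + |∫ f, Q f ∂mP| +
        |∫ f : Fr g₀, R f * (D f - 1) ∂mP| := abs_add_three _ _ _
    _ ≤ C * κ ^ 3 + C * κ ^ 3 + C * κ * r := add_le_add_three hc1 h3 h4
    _ = _ := by ring

/-- second order expansion of the mean stretch `g → g₀` -/
theorem stretch_B {C ε : ℝ} (hC : Consts n C ε) (S : Setup g₀ g μ₀ μ m₀ m mP) {κ : ℝ}
    (hκ0 : 0 ≤ κ) (hκ : κ ≤ ε) (hK : ∀ (f : Fr g₀) i j, |KK g f i j| ≤ κ)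
    {R : UT g₀ → ℝ} (hR : Continuous R) {r : ℝ} (hRr : ∀ p, |R p| ≤ r)
    {a : UT g → ℝ} (hac : Continuous a)
    (ha : ∀ p, a p = radial g₀ (fun q => 1 - uu g q / 2 + 3 / 8 * uu g q ^ 2 + R q) p.pt p.vec) :
    |∫ p, a p ∂m -
      (1 + 1 / (4 * n) * ∫ f, nsq (KK g f) ∂mP - 1 / (8 * n) * ∫ f, (KK g f).trace ^ 2 ∂mP -
        1 / 8 * ∫ f : Fr g₀, KK g f 0 0 ^ 2 ∂mP + ∫ p, R p ∂m₀)| ≤ 2 * C * κ ^ 3 + C * κ * r := by
  have := S.prob
  have hF : Continuous (fun q : UT g₀ => 1 - uu g q / 2 + 3 / 8 * uu g q ^ 2 + R q) := by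
    have h := continuous_uu (g₀ := g₀) g
    exact ((continuous_const.sub (h.div_const 2)).add (continuous_const.mul (h.pow 2))).add hR
  have h1 := integral_liou S.hμ₀ S.hm₀ S.hμ S.hm S.rot S.proj hF hac ha
  have hpos := S.hm₀.vol_pos
  rw [S.vol, div_self hpos.ne', one_mul] at h1
  have h5 : ∫ f : Fr g₀, R (f.ut 0) ∂mP = ∫ p, R p ∂m₀ := by
    rw [← S.proj.map_eq, integral_map S.proj.measurable.aemeasurable hR.aestronglyMeasurable]
  have h6 := stretch_core hC S hκ0 hκ hK (hR.comp (Fr.continuous_ut 0)) (r := r) fun f => hRr _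
  rw [h1, ← h5]
  exact h6

end Vale.Agent.P207.H992
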